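import Mathlib

/-!
# Linearisation of an analytic local group law
-/

open Filter Topology Metric

namespace Vale.Agent.P297Y.Jac

section ift

variable {E₁ E₂ : Type*} [NormedAddCommGroup E₁] [NormedSpace ℂ E₁] [CompleteSpace E₁]
  [NormedAddCommGroup E₂] [NormedSpace ℂ E₂] [CompleteSpace E₂]

omit [CompleteSpace E₁] [CompleteSpace E₂] in
theorem hasFDerivAt_snd_part {G : Type*} [NormedAddCommGroup G] [NormedSpace ℂ G]
    {f : E₁ × E₂ → G} {x : E₁} {y : E₂} (hf : DifferentiableAt ℂ f (x, y)) :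
    HasFDerivAt (fun w => f (x, w)) (fderiv ℂ f (x, y) ∘L .inr ℂ E₁ E₂) y :=
  hf.hasFDerivAt.comp y (hasFDerivAt_prodMk_right x y)

/-- the analytic implicit function theorem -/
theorem ift {f : E₁ × E₂ → E₂} {x : E₁} {y : E₂} (hf : AnalyticAt ℂ f (x, y))
    {L : E₂ →L[ℂ] E₂} (hL : L.IsInvertible) (h2 : HasFDerivAt (fun w => f (x, w)) L y) :
    ∃ ψ : E₁ → E₂, AnalyticAt ℂ ψ x ∧ ψ x = y ∧ (∀ᶠ s in 𝓝 x, f (s, ψ s) = f (x, y)) ∧
      ∀ᶠ v in 𝓝 (x, y), f v = f (x, y) → ψ v.1 = v.2 := by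
  have hc : ContDiffAt ℂ ⊤ f (x, y) := hf.contDiffAt
  have hi : (fderiv ℂ f (x, y) ∘L .inr ℂ E₁ E₂).IsInvertible := by
    rwa [(hasFDerivAt_snd_part hf.differentiableAt).unique h2]
  refine ⟨hc.implicitFunction (by simp) hi, ?_, hc.implicitFunction_apply_self _ hi,
    hc.eventually_apply_implicitFunction _ hi,
    (hc.eventually_apply_eq_iff_implicitFunction _ hi).mono fun v h => h.1⟩
  exact (hc.contDiffAt_implicitFunction _ hi).analyticAt

/-- the implicit function theorem for one equation -/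
theorem ift1 {f : E₁ × ℂ → ℂ} {x : E₁} {y c : ℂ} (hf : AnalyticAt ℂ f (x, y)) (hc : c ≠ 0)
    (h2 : HasDerivAt (fun w => f (x, w)) c y) :
    ∃ ψ : E₁ → ℂ, AnalyticAt ℂ ψ x ∧ ψ x = y ∧ (∀ᶠ s in 𝓝 x, f (s, ψ s) = f (x, y)) ∧
      ∀ᶠ v in 𝓝 (x, y), f v = f (x, y) → ψ v.1 = v.2 :=
  ift hf ⟨ContinuousLinearEquiv.unitsEquivAut ℂ (Units.mk0 c hc), by ext; simp⟩ h2.hasFDerivAt

end ift

/-- a local homomorphism on a vector space extends -/
theorem ext_hom {V G : Type*} [NormedAddCommGroup V] [NormedSpace ℝ V] [AddCommGroup G]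
    (ψ : V → G) (h : ∀ᶠ p : V × V in 𝓝 (0, 0), ψ (p.1 + p.2) = ψ p.1 + ψ p.2) :
    ∃ E : V →+ G, ∀ᶠ v in 𝓝 0, E v = ψ v := by
  obtain ⟨r, hr, hh⟩ := Metric.eventually_nhds_iff.1 h
  have ha : ∀ v w : V, ‖v‖ < r → ‖w‖ < r → ψ (v + w) = ψ v + ψ w := fun v w hv hw =>
    hh (y := (v, w)) (by simp [Prod.dist_eq, hv, hw])
  have h0 : ψ 0 = 0 := by
    have := ha 0 0 (by simpa using hr) (by simpa using hr)
    simpa using this
  have hk : ∀ (k : ℕ) (x : V), k * ‖x‖ < r → ψ ((k : ℝ) • x) = k • ψ x := by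
    intro k x
    induction k with
    | zero => intro _; simp [h0]
    | succ k ih =>
      intro hx
      have hn := norm_nonneg x
      have hk0 : (0 : ℝ) ≤ k := Nat.cast_nonneg k
      push_cast at hx ⊢
      have h1 : (k : ℝ) * ‖x‖ < r := by nlinarith
      rw [add_smul, one_smul, ha _ _ (by rw [norm_smul, Real.norm_natCast]; exact h1)
        (by nlinarith [mul_nonneg hk0 hn]), ih h1, succ_nsmul]
  have hw : ∀ (v : V) (n m : ℕ), 0 < n → 0 < m → ‖v‖ < n * r →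
      n • ψ ((n : ℝ)⁻¹ • v) = (n * m) • ψ (((n * m : ℕ) : ℝ)⁻¹ • v) := by
    intro v n m hn hm hv
    have hn' : (0 : ℝ) < n := by exact_mod_cast hn
    have hm' : (0 : ℝ) < m := by exact_mod_cast hm
    rw [mul_smul, ← hk m, smul_smul]
    · congr 3
      push_cast
      field_simp
    · rw [norm_smul, norm_inv, Real.norm_natCast]
      push_cast
      rw [show (m : ℝ) * (((n : ℝ) * m)⁻¹ * ‖v‖) = ‖v‖ / n by field_simp, div_lt_iff₀ hn']
      linarith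
  have hw2 : ∀ (v : V) (n m : ℕ), 0 < n → 0 < m → ‖v‖ < n * r → ‖v‖ < m * r →
      n • ψ ((n : ℝ)⁻¹ • v) = m • ψ ((m : ℝ)⁻¹ • v) := fun v n m hn hm h1 h2 => by
    rw [hw v n m hn hm h1, hw v m n hm hn h2, mul_comm]
  have hN : ∀ a : ℝ, ∃ n : ℕ, 0 < n ∧ a < n * r := fun a => by
    obtain ⟨n, hn⟩ := exists_nat_gt (a / r)
    refine ⟨n + 1, n.succ_pos, ?_⟩
    rw [div_lt_iff₀ hr] at hn
    push_cast
    linarith
  choose N hN0 hN1 using hN
  refine ⟨AddMonoidHom.mk' (fun v => N ‖v‖ • ψ ((N ‖v‖ : ℝ)⁻¹ • v)) fun v w => ?_, ?_⟩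
  · have h1 := hN1 (‖v‖ + ‖w‖)
    have h2 := hN0 (‖v‖ + ‖w‖)
    have hv := norm_nonneg v
    have hw' := norm_nonneg w
    generalize N (‖v‖ + ‖w‖) = n at h1 h2
    have hn' : (0 : ℝ) < n := by exact_mod_cast h2
    have hs : ∀ x : V, ‖x‖ < n * r → ‖(n : ℝ)⁻¹ • x‖ < r := fun x hx => by
      rw [norm_smul, norm_inv, Real.norm_natCast, inv_mul_lt_iff₀ hn']
      exact hx
    rw [hw2 _ _ n (hN0 _) h2 (hN1 _) ((norm_add_le v w).trans_lt h1),
      hw2 v _ n (hN0 _) h2 (hN1 _) (by linarith), hw2 w _ n (hN0 _) h2 (hN1 _) (by linarith),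
      smul_add, ha _ _ (hs v (by linarith)) (hs w (by linarith)), smul_add]
  · filter_upwards [ball_mem_nhds (0 : V) hr] with v hv
    rw [mem_ball_zero_iff] at hv
    have := hw2 v _ 1 (hN0 _) one_pos (hN1 _) (by simpa using hv)
    simpa using this

section lin

variable {κ : Type} [Fintype κ] [DecidableEq κ]

/-- the logarithm of a local group law with the splitting property -/
theorem exists_log (μ : (κ → ℂ) × (κ → ℂ) → κ → ℂ) (hμ : AnalyticAt ℂ μ (0, 0))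
    (hr : ∀ᶠ u in 𝓝 0, μ (u, 0) = u) (hl : ∀ᶠ v in 𝓝 0, μ (0, v) = v)
    (has : ∀ᶠ p : ((κ → ℂ) × (κ → ℂ)) × (κ → ℂ) in 𝓝 ((0, 0), 0),
      μ (μ p.1, p.2) = μ (p.1.1, μ (p.1.2, p.2)))
    (hsp : ∀ j, ∀ᶠ p : (κ → ℂ) × ℂ in 𝓝 (0, 0),
      μ (Function.update p.1 j 0, Pi.single j p.2) = Function.update p.1 j p.2) :
    ∃ l : (κ → ℂ) → κ → ℂ, AnalyticAt ℂ l 0 ∧ l 0 = 0 ∧ HasFDerivAt l (.id ℂ _) 0 ∧
      ∀ᶠ p in 𝓝 (0, 0), l (μ p) = l p.1 + l p.2 := by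
  have hμ0 : μ (0, 0) = 0 := hr.self_of_nhds
  have tμ : Tendsto μ (𝓝 (0, 0)) (𝓝 0) := by
    have := hμ.continuousAt.tendsto
    rwa [hμ0] at this
  let D : (κ → ℂ) × (κ → ℂ) → (κ → ℂ) →L[ℂ] (κ → ℂ) := fun p => fderiv ℂ μ p ∘L .inr ℂ _ _
  have hD : ∀ᶠ p : (κ → ℂ) × (κ → ℂ) in 𝓝 (0, 0), HasFDerivAt (fun w => μ (p.1, w)) (D p) p.2 :=
    hμ.eventually_analyticAt.mono fun p hp => hasFDerivAt_snd_part hp.differentiableAt
  have t0 : Tendsto (fun u : κ → ℂ => (u, (0 : κ → ℂ))) (𝓝 0) (𝓝 (0, 0)) :=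
    (continuous_id.prodMk continuous_const).tendsto 0
  have t1 : Tendsto (fun p : (κ → ℂ) × (κ → ℂ) => p.1) (𝓝 (0, 0)) (𝓝 0) := continuous_fst.tendsto _
  have t2 : Tendsto (fun p : (κ → ℂ) × (κ → ℂ) => p.2) (𝓝 (0, 0)) (𝓝 0) := continuous_snd.tendsto _
  let A : (κ → ℂ) → (κ → ℂ) →L[ℂ] (κ → ℂ) := fun u => D (u, 0)
  have hA : ∀ᶠ u in 𝓝 0, HasFDerivAt (fun w => μ (u, w)) (A u) 0 := t0.eventually hD
  have key : ∀ᶠ p : (κ → ℂ) × (κ → ℂ) in 𝓝 (0, 0), A (μ p) = D p ∘L A p.2 := by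
    rw [nhds_prod_eq] at has
    filter_upwards [has.curry, tμ.eventually hA, t2.eventually hA, hD, t2.eventually hr]
      with p h1 h2 h3 h4 h5
    have h6 : HasFDerivAt (fun w => μ (p.1, w)) (D p) (μ (p.2, 0)) := by rwa [h5]
    exact (h2.congr_of_eventuallyEq (EventuallyEq.symm h1)).unique
      (HasFDerivAt.comp (f := fun w => μ (p.2, w)) (g := fun w => μ (p.1, w)) 0 h6 h3)
  have hA0 : A 0 = 1 := hA.self_of_nhds.unique ((hasFDerivAt_id _).congr_of_eventuallyEq hl)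
  have aA : AnalyticAt ℂ A 0 := by
    have h1 : AnalyticAt ℂ (fun u : κ → ℂ => fderiv ℂ μ (u, 0)) 0 :=
      AnalyticAt.comp (f := fun u : κ → ℂ => (u, (0 : κ → ℂ))) hμ.fderiv
        (analyticAt_id.prod analyticAt_const)
    exact (((ContinuousLinearMap.compL ℂ (κ → ℂ) ((κ → ℂ) × (κ → ℂ)) (κ → ℂ)).flip
      (.inr ℂ _ _)).analyticAt _).comp h1
  have uA : ∀ᶠ u in 𝓝 0, IsUnit (A u) :=
    aA.continuousAt.eventually (Units.isOpen.mem_nhds (by rw [hA0]; exact isUnit_one))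
  let B : (κ → ℂ) → (κ → ℂ) →L[ℂ] (κ → ℂ) := fun u => Ring.inverse (A u)
  have aB : AnalyticAt ℂ B 0 := by
    refine AnalyticAt.comp (g := Ring.inverse) ?_ aA
    rw [hA0]
    exact analyticAt_inverse (1 : ((κ → ℂ) →L[ℂ] (κ → ℂ))ˣ)
  have ts : ∀ j, AnalyticAt ℂ (fun s : ℂ => (Pi.single j s : κ → ℂ)) 0 := fun j =>
    (ContinuousLinearMap.single ℂ (fun _ : κ => ℂ) j).analyticAt 0
  let b : κ → ℂ → κ → ℂ := fun j s => B (Pi.single j s) (Pi.single j 1)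
  have ab : ∀ j, AnalyticAt ℂ (b j) 0 := fun j => by
    have h1 : AnalyticAt ℂ (fun s : ℂ => B (Pi.single j s)) 0 :=
      aB.comp_of_eq (ts j) (by simp)
    exact ((ContinuousLinearMap.apply ℂ (κ → ℂ) (Pi.single j 1 : κ → ℂ)).analyticAt _).comp h1
  have hp : ∀ j, ∃ L : ℂ → κ → ℂ, L 0 = 0 ∧ ∀ᶠ s in 𝓝 0, HasDerivAt L (b j s) s := fun j => by
    obtain ⟨r, hr, h⟩ := Metric.eventually_nhds_iff_ball.1 (ab j).eventually_analyticAt
    obtain ⟨L, h0, hL⟩ := (DifferentiableOn.isExactOn_ball (f := b j) (c := 0) (r := r)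
      fun s hs => (h s hs).differentiableAt.differentiableWithinAt).with_val_at 0 0
    exact ⟨L, h0, (eventually_of_mem (ball_mem_nhds 0 hr) hL)⟩
  choose L hL0 hL using hp
  have tj : ∀ j, Tendsto (fun u : κ → ℂ => u j) (𝓝 0) (𝓝 0) := fun j =>
    (continuous_apply j).tendsto 0
  have hcol : ∀ j, ∀ᶠ u in 𝓝 (0 : κ → ℂ), B u (Pi.single j 1) = b j (u j) := fun j => by
    have c1 : Continuous fun u : κ → ℂ => (u, u j) := by fun_prop
    have c3 : Continuous fun u : κ → ℂ => (Pi.single j (u j) : κ → ℂ) :=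
      (continuous_single j).comp (continuous_apply j)
    have c2 : Continuous fun u : κ → ℂ =>
        ((Function.update u j 0, Pi.single j (u j)) : (κ → ℂ) × (κ → ℂ)) :=
      Continuous.prodMk (by fun_prop) c3
    have e1 := c1.tendsto' 0 (0, 0) rfl
    have e2 := c2.tendsto' 0 (0, 0) (by simp)
    have e3 := c3.tendsto' 0 0 (by simp)
    filter_upwards [e1.eventually (hsp j).eventually_nhds, e2.eventually key, e2.eventually hD,
      uA, e3.eventually uA] with u h1 h2 h3 h4 h5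
    have h6 : ∀ᶠ s in 𝓝 (u j), μ (Function.update u j 0, Pi.single j s) =
        Function.update u j s :=
      ((continuous_const.prodMk continuous_id).tendsto (u j)).eventually h1
    have h7 := h3.comp_hasDerivAt (u j)
      (ContinuousLinearMap.single ℂ (fun _ : κ => ℂ) j).hasDerivAt
    have h8 := (h7.congr_of_eventuallyEq (EventuallyEq.symm h6)).unique
      (hasDerivAt_update u j (u j))
    rw [h6.self_of_nhds, Function.update_eq_self] at h2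
    have h9 : A u (b j (u j)) = Pi.single j 1 := by
      rw [h2]
      change D _ ((A _ * Ring.inverse (A _)) _) = _
      rw [Ring.mul_inverse_cancel _ h5]
      exact h8
    rw [← h9]
    change (Ring.inverse (A u) * A u) _ = _
    rw [Ring.inverse_mul_cancel _ h4]
    rfl
  let l : (κ → ℂ) → κ → ℂ := fun u => ∑ j, L j (u j)
  have hl0 : l 0 = 0 := by simp [l, hL0]
  have dl : ∀ᶠ u in 𝓝 (0 : κ → ℂ), HasFDerivAt l (B u) u := by
    filter_upwards [eventually_all.2 fun j => (tj j).eventually (hL j), eventually_all.2 hcol]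
      with u h1 h2
    have h3 := HasFDerivAt.fun_sum (u := Finset.univ) fun j _ =>
      HasFDerivAt.comp (f := fun u : κ → ℂ => u j) u (h1 j).hasFDerivAt (hasFDerivAt_apply j u)
    refine h3.congr_fderiv (ContinuousLinearMap.ext fun v => ?_)
    conv_rhs => rw [pi_eq_sum_univ' v]
    simp [h2]
  have al : AnalyticAt ℂ l 0 := by
    refine Finset.analyticAt_fun_sum _ fun j _ => ?_
    have h1 : AnalyticAt ℂ (L j) 0 := by
      obtain ⟨U, hU, h⟩ := (hL j).exists_mem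
      exact DifferentiableOn.analyticAt
        (fun s hs => (h s hs).differentiableAt.differentiableWithinAt) hU
    exact AnalyticAt.comp (f := fun u : κ → ℂ => u j) h1
      ((ContinuousLinearMap.proj (R := ℂ) (φ := fun _ : κ => ℂ) j).analyticAt 0)
  refine ⟨l, al, hl0, ?_, ?_⟩
  · have := dl.self_of_nhds
    rwa [show B 0 = 1 by simp [B, hA0]] at this
  have hz : ∀ᶠ p : (κ → ℂ) × (κ → ℂ) in 𝓝 (0, 0),
      HasFDerivAt (fun w => l (μ (p.1, w)) - l w) (0 : (κ → ℂ) →L[ℂ] (κ → ℂ)) p.2 ∧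
        μ (p.1, 0) = p.1 := by
    filter_upwards [tμ.eventually dl, t2.eventually dl, hD, key, tμ.eventually uA,
      t2.eventually uA, t1.eventually hr] with p h1 h2 h3 h4 h5 h6 h7
    refine ⟨?_, h7⟩
    have h8 : D p = A (μ p) * Ring.inverse (A p.2) := by
      rw [h4]
      change _ = D p * A p.2 * _
      rw [mul_assoc, Ring.mul_inverse_cancel _ h6, mul_one]
    have h9 : B (μ p) ∘L D p - B p.2 = 0 := by
      rw [sub_eq_zero]
      change Ring.inverse (A (μ p)) * D p = Ring.inverse (A p.2)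
      rw [h8, ← mul_assoc, Ring.inverse_mul_cancel _ h5, one_mul]
    rw [← h9]
    exact (HasFDerivAt.comp (f := fun w => μ (p.1, w)) p.2 h1 h3).sub h2
  obtain ⟨r, hr0, hb⟩ := Metric.eventually_nhds_iff_ball.1 hz
  filter_upwards [ball_mem_nhds _ hr0] with p hp
  rw [← ball_prod_same] at hp hb
  have h1 := isOpen_ball.is_const_of_fderiv_eq_zero (𝕜 := ℂ)
    (f := fun w => l (μ (p.1, w)) - l w) (convex_ball (0 : κ → ℂ) r).isPreconnected
    (fun w hw => (hb (p.1, w) ⟨hp.1, hw⟩).1.differentiableAt.differentiableWithinAt)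
    (fun w hw => (hb (p.1, w) ⟨hp.1, hw⟩).1.fderiv) hp.2 (mem_ball_self hr0)
  simp only [(hb p hp).2, hl0, sub_zero] at h1
  rw [← h1, sub_add_cancel]

/-- a local parametrisation of a group with an analytic group law comes from a homomorphism -/
theorem lin {G : Type*} [AddCommGroup G] (ψ : κ → ℂ → G) (h0 : ∀ i, ψ i 0 = 0)
    (hinj : ∀ᶠ p : (κ → ℂ) × (κ → ℂ) in 𝓝 (0, 0),
      ∑ i, ψ i (p.1 i) = ∑ i, ψ i (p.2 i) → p.1 = p.2)
    (μ : (κ → ℂ) × (κ → ℂ) → κ → ℂ) (hμ : AnalyticAt ℂ μ (0, 0)) (hμ0 : μ (0, 0) = 0)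
    (hadd : ∀ᶠ p in 𝓝 (0, 0), ∑ i, ψ i (μ p i) = ∑ i, ψ i (p.1 i) + ∑ i, ψ i (p.2 i)) :
    ∃ (E : (κ → ℂ) →+ G) (l : (κ → ℂ) → κ → ℂ), AnalyticAt ℂ l 0 ∧ l 0 = 0 ∧
      (∀ᶠ u in 𝓝 0, E (l u) = ∑ i, ψ i (u i)) ∧ ∀ᶠ v in 𝓝 0, E v = 0 → v = 0 := by
  have tμ : Tendsto μ (𝓝 (0, 0)) (𝓝 0) := by
    have := hμ.continuousAt.tendsto
    rwa [hμ0] at this
  let Ψ : (κ → ℂ) → G := fun u => ∑ i, ψ i (u i)
  have Ψ0 : Ψ 0 = 0 := by simp [Ψ, h0]
  change ∀ᶠ p : (κ → ℂ) × (κ → ℂ) in 𝓝 (0, 0), Ψ p.1 = Ψ p.2 → p.1 = p.2 at hinj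
  change ∀ᶠ p in 𝓝 (0, 0), Ψ (μ p) = Ψ p.1 + Ψ p.2 at hadd
  have hi : ∀ {α : Type} {F : Filter α} {a b : α → κ → ℂ}, Tendsto a F (𝓝 0) →
      Tendsto b F (𝓝 0) → (∀ᶠ x in F, Ψ (a x) = Ψ (b x)) → ∀ᶠ x in F, a x = b x :=
    fun ha hb h => ((ha.prodMk_nhds hb).eventually hinj).mp (h.mono fun x h1 h2 => h2 h1)
  have hm : ∀ {α : Type} {F : Filter α} {a b : α → κ → ℂ}, Tendsto a F (𝓝 0) →
      Tendsto b F (𝓝 0) → Tendsto (fun x => μ (a x, b x)) F (𝓝 0) ∧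
        ∀ᶠ x in F, Ψ (μ (a x, b x)) = Ψ (a x) + Ψ (b x) :=
    fun ha hb => ⟨tμ.comp (ha.prodMk_nhds hb), (ha.prodMk_nhds hb).eventually hadd⟩
  have tc : ∀ {α : Type} {F : Filter α}, Tendsto (fun _ : α => (0 : κ → ℂ)) F (𝓝 0) :=
    fun {_ _} => tendsto_const_nhds
  obtain ⟨l, al, l0, dl, hl⟩ := exists_log μ hμ
    (hi (hm tendsto_id tc).1 tendsto_id ((hm tendsto_id tc).2.mono fun u h => by
      simpa [Ψ0] using h))
    (hi (hm tc tendsto_id).1 tendsto_id ((hm tc tendsto_id).2.mono fun u h => by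
      simpa [Ψ0] using h))
    (by
      have a1 : Tendsto (fun p : ((κ → ℂ) × (κ → ℂ)) × (κ → ℂ) => p.1.1) (𝓝 ((0, 0), 0)) (𝓝 0) :=
        (continuous_fst.comp continuous_fst).tendsto _
      have a2 : Tendsto (fun p : ((κ → ℂ) × (κ → ℂ)) × (κ → ℂ) => p.1.2) (𝓝 ((0, 0), 0)) (𝓝 0) :=
        (continuous_snd.comp continuous_fst).tendsto _
      have a3 : Tendsto (fun p : ((κ → ℂ) × (κ → ℂ)) × (κ → ℂ) => p.2) (𝓝 ((0, 0), 0)) (𝓝 0) :=
        continuous_snd.tendsto _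
      refine hi (hm (hm a1 a2).1 a3).1 (hm a1 (hm a2 a3).1).1 ?_
      filter_upwards [(hm (hm a1 a2).1 a3).2, (hm a1 a2).2, (hm a1 (hm a2 a3).1).2,
        (hm a2 a3).2] with p h1 h2 h3 h4
      rw [h1, h2, h3, h4, add_assoc])
    (fun j => by
      have c1 : Continuous fun p : (κ → ℂ) × ℂ => Function.update p.1 j (0 : ℂ) := by fun_prop
      have c2 : Continuous fun p : (κ → ℂ) × ℂ => (Pi.single j p.2 : κ → ℂ) :=
        (continuous_single j).comp continuous_snd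
      have c3 : Continuous fun p : (κ → ℂ) × ℂ => Function.update p.1 j p.2 := by fun_prop
      have e1 := c1.tendsto' (0, 0) 0 (by simp)
      have e2 := c2.tendsto' (0, 0) 0 (by simp)
      refine hi (hm e1 e2).1 (c3.tendsto' (0, 0) 0 (by simp)) ((hm e1 e2).2.mono fun p h => ?_)
      rw [h, ← Finset.sum_add_distrib]
      refine Finset.sum_congr rfl fun i _ => ?_
      by_cases hij : i = j
      · subst hij
        simp [h0]
      · simp [hij, h0])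
  obtain ⟨e, ae, e0, he1, he2⟩ := ift (f := fun p : (κ → ℂ) × (κ → ℂ) => l p.2 - p.1)
    (x := 0) (y := 0) ((AnalyticAt.comp (f := Prod.snd) al analyticAt_snd).sub analyticAt_fst)
    (L := .id ℂ _) ⟨.refl ℂ _, rfl⟩ (by simpa using dl)
  simp only [l0, sub_zero, sub_eq_zero] at he1 he2
  have te : Tendsto e (𝓝 0) (𝓝 0) := by simpa [ContinuousAt, e0] using ae.continuousAt
  have tl : Tendsto l (𝓝 0) (𝓝 0) := by simpa [ContinuousAt, l0] using al.continuousAt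
  have hel : ∀ᶠ u in 𝓝 0, e (l u) = u :=
    ((tl.prodMk_nhds tendsto_id).eventually he2).mono fun u h => h rfl
  have t1 : Tendsto (fun p : (κ → ℂ) × (κ → ℂ) => p.1) (𝓝 (0, 0)) (𝓝 0) := continuous_fst.tendsto _
  have t2 : Tendsto (fun p : (κ → ℂ) × (κ → ℂ) => p.2) (𝓝 (0, 0)) (𝓝 0) := continuous_snd.tendsto _
  obtain ⟨E, hE⟩ := ext_hom (fun v => Ψ (e v)) (by
    have b1 := te.comp t1
    have b2 := te.comp t2
    filter_upwards [(hm b1 b2).1.eventually hel, (hm b1 b2).2, (b1.prodMk_nhds b2).eventually hl,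
      t1.eventually he1, t2.eventually he1] with p h1 h2 h3 h4 h5
    simp only [Function.comp] at h1 h2 h3
    rw [h3, h4, h5] at h1
    rw [h1, h2])
  refine ⟨E, l, al, l0, ?_, ?_⟩
  · filter_upwards [tl.eventually hE, hel] with u h1 h2
    rw [h1, h2]
  · filter_upwards [hE, (te.prodMk_nhds tc).eventually hinj, he1] with v h1 h2 h3 h4
    rw [← h3, h2 (by rw [← h1, h4, Ψ0]), l0]

end lin

end Vale.Agent.P297Y.Jac
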