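import Vale.Agent.P297Y.Jac.Mod
import Vale.Agent.P297Y.Jac.Grp

/-!
# Analytic charts on the space of places
-/

open Filter Topology Polynomial Vale.Agent.P019P

namespace Vale.Agent.P297Y.Jac

variable {F : Type} [Field F] [Algebra ℂ F] [CFF ℂ F]

/-- a point of the plane model comes from a place -/
theorem exists_plk {t u : F} (ht : ∀ a, t ≠ algebraMap ℂ F a) {m : ℂ[X][X]}
    (hm : ∀ p, ap t u p = 0 ↔ m ∣ p) {s y : ℂ} (h : m.evalEval s y = 0) :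
    ∃ Q : Plk ℂ F, t ∈ Q.1 ∧ u ∈ Q.1 ∧ ev Q t = s ∧ ev Q u = y := by
  obtain ⟨B, h1, h2⟩ := Ideal.image_subset_nonunits_valuationSubring (A := (ap t u).range)
    ((RingHom.ker (evalEvalRingHom s y)).map (ap t u).rangeRestrict) fun h3 => by
      obtain ⟨p, h4, h5⟩ := (Ideal.mem_map_iff_of_surjective _
        (ap t u).rangeRestrict_surjective).1 ((Ideal.eq_top_iff_one _).1 h3)
      have h6 : ap t u p = 1 := congrArg Subtype.val h5
      obtain ⟨H, hH⟩ := (hm (p - 1)).1 (by rw [map_sub, h6, map_one, sub_self])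
      have h7 := congrArg (evalEval s y) hH
      have h8 : p.evalEval s y = 0 := h4
      simp [evalEval_sub, evalEval_mul, h, h8] at h7
  have h3 : ∀ p : ℂ[X][X], p.evalEval s y = 0 → ap t u p = 0 ∨ (ap t u p)⁻¹ ∉ B := fun p hp =>
    B.mem_nonunits_iff_or.1 (h2 ⟨_, Ideal.mem_map_of_mem _ hp, rfl⟩)
  have h4 := h3 (C X - C (C s)) (by simp [evalEval_sub, evalEval_C])
  have h5 := h3 (X - C (C y)) (by simp [evalEval_sub, evalEval_C])
  simp only [map_sub, ap_C, ap_X, aeval_X, aeval_C] at h4 h5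
  let Q : Plk ℂ F := ⟨B, fun a => h1 ⟨C (C a), by rw [ap_C, aeval_C]⟩, fun h6 =>
    h4.elim (fun h7 => ht s (sub_eq_zero.1 h7)) fun h7 => h7 (by rw [h6]; trivial)⟩
  have h6 : ∀ f : F, f = 0 ∨ f⁻¹ ∉ B → f ∈ Mge Q 1 := fun f hf =>
    hf.elim Or.inl fun h7 => inv_inv f ▸ inv_mem_one (P := Q) h7
  exact ⟨Q, mem_of_sub (h6 _ h4), mem_of_sub (h6 _ h5), ev_eq (h6 _ h4), ev_eq (h6 _ h5)⟩

/-- a place is determined by its point, away from the singularities -/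
theorem plk_uniq {t u : F} (ht : ∀ a, t ≠ algebraMap ℂ F a) {b : ℂ[X][X]}
    (hb : ∀ a, Rg t a → ∃ p, ap t u b * a = ap t u p) {Q Q' : Plk ℂ F} (h1 : t ∈ Q.1)
    (h2 : u ∈ Q.1) (h3 : t ∈ Q'.1) (h4 : u ∈ Q'.1) (h5 : ev Q t = ev Q' t)
    (h6 : ev Q u = ev Q' u) (h0 : b.evalEval (ev Q' t) (ev Q' u) ≠ 0) : Q = Q' := by
  classical
  by_contra hne
  obtain ⟨z, z1, hz⟩ := exists_sa ht h1 (Finsupp.single Q' 1) (by simp [hne])
  have zr : Rg t z := fun R hR => mem_iff.2 (Mge_mono R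
    (Finsupp.single_nonneg.2 zero_le_one R) (hz R hR))
  obtain ⟨p, hp⟩ := hb z zr
  have e1 := congrArg (ev Q) hp
  have e2 := congrArg (ev Q') hp
  rw [ev_mul (ap_ev h1 h2 b).1 (zr Q h1), (ap_ev h1 h2 b).2, (ap_ev h1 h2 p).2, z1, h5, h6] at e1
  rw [ev_mul (ap_ev h3 h4 b).1 (zr Q' h3), (ap_ev h3 h4 p).2,
    ev_eq_zero (f := z) (by simpa using hz Q' h3)] at e2
  exact h0 (by rw [← mul_one (evalEval _ _ b), e1, ← e2, mul_zero])

/-- analytic charts -/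
structure Ch (P : Plk ℂ F) where
  /-- the local parameter -/
  t : F
  /-- the second coordinate -/
  u : F
  /-- the inverse of the local parameter -/
  pt : ℂ → Plk ℂ F
  ord_t : ord P t = 1
  u_mem : u ∈ P.1
  pt0 : pt 0 = P
  an : ∀ f ∈ P.1, (∀ᶠ s in 𝓝 0, f ∈ (pt s).1) ∧ AnalyticAt ℂ (fun s => ev (pt s) f) 0
  ev_t : ∀ᶠ s in 𝓝 0, ev (pt s) t = s
  nb : ∀ᶠ v : ℂ × ℂ in 𝓝 (0, ev P u), ∀ Q : Plk ℂ F, t ∈ Q.1 → u ∈ Q.1 → ev Q t = v.1 →
    ev Q u = v.2 → Q = pt v.1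

theorem nonempty_ch (P : Plk ℂ F) : Nonempty (Ch P) := by
  classical
  obtain ⟨t, u, b, m, t1, ur, u1, b1, hb, hm, hd⟩ := exists_model P
  have ht : ∀ a, t ≠ algebraMap ℂ F a := by
    rintro a rfl
    simp [ord_const] at t1
  have tP : t ∈ Mge P 1 := Or.inr t1.ge
  have tP' := mem_of_one tP
  have t0 := ev_eq_zero tP
  have hev : ∀ {Q : Plk ℂ F}, t ∈ Q.1 → m.evalEval (ev Q t) (ev Q u) = 0 := fun {Q} hQ => by
    rw [← (ap_ev hQ (ur Q hQ) m).2, (hm m).2 dvd_rfl, ev_eq_zero (zero_mem _)]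
  have m0 := hev tP'
  rw [t0, u1] at m0
  obtain ⟨y, ay, y0, hy, hy'⟩ := ift1 (an_evalEval m (0, 1)) hd (der_evalEval m 0 1)
  simp only [m0] at hy hy'
  have ac : ∀ p : ℂ[X][X], AnalyticAt ℂ (fun s => p.evalEval s (y s)) 0 := fun p =>
    AnalyticAt.comp (f := fun s => (s, y s)) (an_evalEval p _) (analyticAt_id.prod ay)
  let pt : ℂ → Plk ℂ F := fun s =>
    if h : ∃ Q : Plk ℂ F, t ∈ Q.1 ∧ u ∈ Q.1 ∧ ev Q t = s ∧ ev Q u = y s then h.choose else P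
  have hpt : ∀ s, m.evalEval s (y s) = 0 →
      t ∈ (pt s).1 ∧ u ∈ (pt s).1 ∧ ev (pt s) t = s ∧ ev (pt s) u = y s := fun s hs => by
    have h := exists_plk ht hm hs
    simp only [pt, dif_pos h]
    exact h.choose_spec
  have hun : ∀ Q : Plk ℂ F, t ∈ Q.1 → b.evalEval (ev Q t) (ev Q u) ≠ 0 → y (ev Q t) = ev Q u →
      pt (ev Q t) = Q := fun Q h1 h2 h3 => by
    obtain ⟨h4, h5, h6, h7⟩ := hpt (ev Q t) (by rw [h3]; exact hev h1)
    exact plk_uniq ht hb h4 h5 h1 (ur Q h1) h6 (h7.trans h3) h2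
  refine ⟨⟨t, u, pt, t1, ur P tP', ?_, fun f hf => ?_, hy.mono fun s hs => (hpt s hs).2.2.1, ?_⟩⟩
  · simpa only [t0] using hun P tP' (by simp [t0, u1, b1]) (by rw [t0, y0, u1])
  · obtain ⟨z, z1, hz⟩ := exists_sa ht tP' (pol ℂ f) (pol_eq hf)
    obtain ⟨p, hp⟩ := hb z fun Q hQ => mem_iff.2 (Mge_mono Q (pol_nonneg f Q) (hz Q hQ))
    obtain ⟨q, hq⟩ := hb (z * f) fun Q hQ => mem_iff.2 (Mge_mono Q (n := pol ℂ f Q + ord Q f)
      (by rw [pol_apply]; omega) (mul_mem_Mge (hz Q hQ) (Or.inr le_rfl)))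
    have p1 : p.evalEval 0 (y 0) ≠ 0 := by
      have := congrArg (ev P) hp
      rw [ev_mul (ap_ev tP' (ur P tP') b).1 (mem_of_ev_ne (z1.trans_ne one_ne_zero)),
        (ap_ev tP' (ur P tP') b).2, (ap_ev tP' (ur P tP') p).2, t0, u1, z1, b1] at this
      simp [y0, ← this]
    have h1 : ∀ᶠ s in 𝓝 0, f ∈ (pt s).1 ∧
        q.evalEval s (y s) * (p.evalEval s (y s))⁻¹ = ev (pt s) f := by
      filter_upwards [hy, (ac p).continuousAt.eventually_ne p1] with s h1 h2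
      obtain ⟨h3, h4, h5, h6⟩ := hpt s h1
      have e1 := ap_ev h3 h4 p
      have e2 := ap_ev h3 h4 q
      rw [h5, h6] at e1 e2
      rw [← e1.2] at h2
      have h7 : ap t u p ≠ 0 := fun h => h2 (by rw [h, ev_eq_zero (zero_mem _)])
      have h8 : f = ap t u q * (ap t u p)⁻¹ := by
        rw [eq_mul_inv_iff_mul_eq₀ h7, ← hp, ← hq]
        ring
      rw [h8, ev_mul e2.1 (inv_mem_of_ev h2), ev_inv h2, e1.2, e2.2]
      exact ⟨mul_mem e2.1 (inv_mem_of_ev h2), rfl⟩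
    exact ⟨h1.mono fun s h => h.1, ((ac q).fun_mul ((ac p).fun_inv p1)).congr
      (h1.mono fun s h => h.2)⟩
  · rw [u1]
    filter_upwards [hy', (an_evalEval b (0, 1)).continuousAt.eventually_ne
      (b1.trans_ne one_ne_zero)] with v h1 h2 Q h3 _ h4 h5
    rw [← h4, ← h5] at h1 h2
    rw [← h4, hun Q h3 h2 (h1 (hev h3))]

/-- a chart at every place -/
noncomputable def ch (P : Plk ℂ F) : Ch P := (nonempty_ch P).some

namespace Ch

variable {P : Plk ℂ F} (c : Ch P)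

theorem t_mem : c.t ∈ Mge P 1 := Or.inr c.ord_t.ge

theorem tendsto_pt : Tendsto c.pt (𝓝 0) (𝓝 P) := tendsto_plk fun f hf =>
  ⟨(c.an f hf).1, by simpa only [ContinuousAt, c.pt0] using (c.an f hf).2.continuousAt⟩

theorem nhds : ∀ᶠ Q in 𝓝 P, Q = c.pt (ev Q c.t) := by
  have h := c.nb
  rw [nhds_prod_eq, eventually_prod_iff] at h
  obtain ⟨U, hU, V, hV, h⟩ := h
  rw [← ev_eq_zero c.t_mem] at hU
  filter_upwards [nhds_val (mem_of_one c.t_mem) hU, nhds_val c.u_mem hV] with Q h1 h2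
  exact h h1.2 h2.2 Q h1.1 h2.1 rfl rfl

/-- a function with a simple zero has nonzero derivative -/
theorem deriv_ne {f : F} (hf : ord P f = 1) :
    ∃ a : ℂ, a ≠ 0 ∧ HasDerivAt (fun s => ev (c.pt s) f) a 0 := by
  have t0 : c.t ≠ 0 := fun h => by simpa [h, ord_zero] using c.ord_t
  have f0 : f ≠ 0 := fun h => by simp [h, ord_zero] at hf
  have h1 : ord P (c.t⁻¹ * f) = 0 := by
    rw [ord_mul P (inv_ne_zero t0) f0, ord_inv, c.ord_t, hf]
    rfl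
  have h2 : c.t⁻¹ * f ∈ P.1 := mem_iff.2 (Or.inr h1.ge)
  refine ⟨ev P (c.t⁻¹ * f), fun h => ?_, ?_⟩
  · rcases mem_of_ev h2 h with h | h
    · exact mul_ne_zero (inv_ne_zero t0) f0 h
    · omega
  · have h3 := (hasDerivAt_id' (0 : ℂ)).fun_mul (c.an _ h2).2.differentiableAt.hasDerivAt
    simp only [c.pt0, one_mul, zero_mul, add_zero] at h3
    refine h3.congr_of_eventuallyEq ?_
    filter_upwards [c.ev_t, (c.an _ h2).1, (c.an _ (mem_of_one c.t_mem)).1] with s h4 h5 h6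
    have h7 := ev_mul h6 h5
    rwa [h4, mul_inv_cancel_left₀ t0] at h7

end Ch

end Vale.Agent.P297Y.Jac
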