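import Vale.Agent.P297Y.Jac.Loc

/-!
# Linear equivalence in analytic families
-/

open Filter Topology Function Vale.Agent.P019P

namespace Vale.Agent.P297Y.Jac

section sd

variable {X ι : Type*} [Fintype ι]

/-- the divisor of a family of points -/
noncomputable def sd (x : ι → X) : X →₀ ℤ := ∑ i, Finsupp.single (x i) 1

theorem dg_sd (x : ι → X) : dg (sd x) = Fintype.card ι := by simp [sd, dg_sgl]

theorem single_le_sd (x : ι → X) (i : ι) : Finsupp.single (x i) 1 ≤ sd x :=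
  Finset.single_le_sum (f := fun i => Finsupp.single (x i) (1 : ℤ))
    (fun _ _ => Finsupp.single_nonneg.2 zero_le_one) (Finset.mem_univ i)

theorem sd_nonneg (x : ι → X) : 0 ≤ sd x :=
  Finset.sum_nonneg fun _ _ => Finsupp.single_nonneg.2 zero_le_one

theorem one_le_sd (x : ι → X) (i : ι) : 1 ≤ sd x (x i) := by simpa using single_le_sd x i (x i)

theorem sd_ne {x : ι → X} {Q : X} (h : ∀ i, x i ≠ Q) : sd x Q = 0 := by
  rw [sd, Finsupp.finsetSum_apply]
  exact Finset.sum_eq_zero fun i _ => Finsupp.single_eq_of_ne' (h i)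

theorem sd_inj {x : ι → X} (h : Injective x) (i : ι) : sd x (x i) = 1 := by
  rw [sd, Finsupp.finsetSum_apply, Finset.sum_eq_single i
    (fun j _ hj => Finsupp.single_eq_of_ne' (h.ne hj)) (by simp), Finsupp.single_eq_same]

theorem sd_le {x : ι → X} (h : Injective x) {D : X →₀ ℤ} (h0 : 0 ≤ D) (h1 : ∀ i, 1 ≤ D (x i)) :
    sd x ≤ D := fun Q => by
  by_cases hQ : ∃ i, x i = Q
  · obtain ⟨i, rfl⟩ := hQ
    rw [sd_inj h]
    exact h1 i
  · rw [sd_ne (not_exists.1 hQ)]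
    exact h0 Q

theorem sd_elim {κ : Type*} [Fintype κ] (x : ι → X) (y : κ → X) :
    sd (Sum.elim x y) = sd x + sd y := by simp [sd]

end sd

section an

variable {E₁ E₂ G : Type*} [NormedAddCommGroup E₁] [NormedSpace ℂ E₁] [NormedAddCommGroup E₂]
  [NormedSpace ℂ E₂] [NormedAddCommGroup G] [NormedSpace ℂ G] {x : E₁} {y : E₂}

theorem an_fst {f : E₁ → G} (hf : AnalyticAt ℂ f x) :
    AnalyticAt ℂ (fun v : E₁ × E₂ => f v.1) (x, y) := hf.comp_of_eq analyticAt_fst rfl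

theorem an_snd {f : E₂ → G} (hf : AnalyticAt ℂ f y) :
    AnalyticAt ℂ (fun v : E₁ × E₂ => f v.2) (x, y) := hf.comp_of_eq analyticAt_snd rfl

theorem an_pr {ι : Type} [Fintype ι] (k : ι) (x : ι → ℂ) : AnalyticAt ℂ (fun s : ι → ℂ => s k) x :=
  (ContinuousLinearMap.proj (R := ℂ) (φ := fun _ : ι => ℂ) k).analyticAt x

end an

variable {F : Type} [Field F] [Algebra ℂ F] [CFF ℂ F] {ι κ : Type} [Fintype ι] [Fintype κ]

/-- moving a family of places in the charts -/
noncomputable def mv (x : ι → Plk ℂ F) (s : ι → ℂ) (i : ι) : Plk ℂ F := (ch (x i)).pt (s i)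

omit [Fintype ι] in
theorem mv0 (x : ι → Plk ℂ F) : mv x 0 = x := funext fun i => (ch (x i)).pt0

omit [Fintype ι] in
theorem tendsto_mv (x : ι → Plk ℂ F) (i : ι) : Tendsto (fun s => mv x s i) (𝓝 0) (𝓝 (x i)) :=
  (ch (x i)).tendsto_pt.comp ((continuous_apply i).tendsto (0 : ι → ℂ))

theorem an_mv {x : ι → Plk ℂ F} {i : ι} {f : F} (hf : f ∈ (x i).1) :
    AnalyticAt ℂ (fun s => ev (mv x s i) f) 0 :=
  ((ch (x i)).an f hf).2.comp_of_eq (an_pr i 0) rfl

theorem ev_ne {α : Type*} {L : Filter α} {a b : α → Plk ℂ F} {P Q : Plk ℂ F}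
    (ha : Tendsto a L (𝓝 P)) (hb : Tendsto b L (𝓝 Q)) (h : P ≠ Q) : ∀ᶠ x in L, a x ≠ b x :=
  (ha.prodMk_nhds hb).eventually
    ((isOpen_ne_fun continuous_fst continuous_snd).mem_nhds (x := (P, Q)) h)

theorem ev_off {x : ι → Plk ℂ F} {D : Plk ℂ F →₀ ℤ} (h : ∀ i, D (x i) = 0) :
    ∀ᶠ s in 𝓝 0, ∀ i, D (mv x s i) = 0 :=
  eventually_all.2 fun i => ((tendsto_mv x i).eventually
    (D.support.finite_toSet.isClosed.isOpen_compl.mem_nhds (by simpa using h i))).mono
      fun s hs => by simpa using hs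

theorem mem_of_LL {D : Plk ℂ F →₀ ℤ} {f : F} (hf : f ∈ LL ℂ D) {Q : Plk ℂ F} (h : D Q = 0) :
    f ∈ Q.1 := by simpa [h, mem_iff] using mem_LL_iff.1 hf Q

theorem l_one {q : κ → Plk ℂ F} (hκ : Fintype.card κ = gen ℂ F)
    (hl : Module.finrank ℂ (LL ℂ (can ℂ F - sd q)) = 0) : Module.finrank ℂ (LL ℂ (sd q)) = 1 := by
  have := RR (sd q)
  rw [hl, dg_sd, hκ] at this
  omega

/-- moving points can be compensated by moving a non-special divisor -/
theorem exists_cmp {p : ι → Plk ℂ F} {q : κ → Plk ℂ F} (hi : Injective (Sum.elim p q))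
    (hκ : Fintype.card κ = gen ℂ F) (hl : Module.finrank ℂ (LL ℂ (can ℂ F - sd q)) = 0) :
    ∃ φ : (ι → ℂ) → κ → ℂ, AnalyticAt ℂ φ 0 ∧ φ 0 = 0 ∧
      ∀ᶠ s in 𝓝 0, sd (mv p s) + sd (mv q (φ s)) - (sd p + sd q) ∈ prn ℂ F := by
  classical
  obtain ⟨z, z0, hz⟩ := exists_ord_eq (Finset.univ.image (Sum.elim p q)) fun _ => 1
  have z1 : ∀ a, ord (Sum.elim p q a) z = 1 := fun a => hz _ (Finset.mem_image_of_mem _ (by simp))
  obtain ⟨M, hM⟩ : ∃ M, M + dv ℂ z = sd (Sum.elim p q) := ⟨_, sub_add_cancel _ _⟩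
  have M0 : ∀ a, M (Sum.elim p q a) = 0 := fun a => by
    have := DFunLike.congr_fun hM (Sum.elim p q a)
    rw [Finsupp.add_apply, sd_inj hi, dv_apply, z1] at this
    omega
  have zM : z ∈ LL ℂ M := by
    rw [← mul_one z, mul_mem_LL_iff z0, hM]
    exact Or.inr fun Q => by simpa [ord_one] using sd_nonneg _ Q
  have hf : ∀ k, ∃ f ∈ LL ℂ M, ∀ j, ev (p j) f = if k = j then 1 else 0 := fun k => by
    obtain ⟨h, h1, h2⟩ : ∃ h ∈ LL ℂ (sd q + Finsupp.single (p k) 1), h ∉ LL ℂ (sd q) := by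
      by_contra h
      have h1 := l_step_of_eq (k := ℂ) (D := sd q) (P := p k) fun x hx =>
        not_not.1 fun h1 => h ⟨x, hx, h1⟩
      have h2 := RR (sd q + Finsupp.single (p k) 1)
      rw [h1, l_one hκ hl, map_add, dg_sd, dg_sgl, hκ] at h2
      omega
    have h0 : h ≠ 0 := fun h0 => h2 (Or.inl h0)
    have h3 := h1.resolve_left h0
    have h4 : ∀ j, sd q (p j) = 0 := fun j =>
      sd_ne fun i hij => Sum.inr_ne_inl (hi (a₁ := .inr i) (a₂ := .inl j) hij)
    have h5 : ord (p k) h = -1 := by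
      have h6 := h3 (p k)
      rw [Finsupp.add_apply, h4, Finsupp.single_eq_same] at h6
      by_contra h7
      refine h2 (Or.inr fun Q => ?_)
      by_cases hQ : Q = p k
      · rw [hQ, h4]
        omega
      · simpa [hQ] using h3 Q
    have h6 : z * h ∈ LL ℂ M := by
      rw [mul_mem_LL_iff z0, hM, sd_elim, add_comm]
      exact LL_mono (add_le_add le_rfl (single_le_sd p k)) h1
    have h7 : ∀ j, z * h ∈ (p j).1 := fun j => mem_of_LL h6 (M0 (.inl j))
    have h8 : ∀ j, ord (p j) (z * h) = 1 + ord (p j) h := fun j => by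
      rw [ord_mul _ z0 h0, show ord (p j) z = 1 from z1 (.inl j)]
    have h9 : ev (p k) (z * h) ≠ 0 := fun h9 => by
      rcases mem_of_ev (h7 k) h9 with h9 | h9
      · exact mul_ne_zero z0 h0 h9
      · rw [h8] at h9
        omega
    refine ⟨(ev (p k) (z * h))⁻¹ • (z * h), Submodule.smul_mem _ _ h6, fun j => ?_⟩
    rw [ev_smul _ (h7 j)]
    split_ifs with hj
    · rw [← hj, inv_mul_cancel₀ h9]
    · have h10 := h3 (p j)
      rw [Finsupp.add_apply, h4, Finsupp.single_eq_of_ne' (a := p k) (a' := p j)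
        fun e => hj (Sum.inl_injective (hi (a₁ := .inl k) (a₂ := .inl j) e))] at h10
      rw [ev_eq_zero (P := p j) (f := z * h) (Or.inr (by rw [h8]; omega)), mul_zero]
  choose f fM hf using hf
  have hev : ∀ {Q : Plk ℂ F}, M Q = 0 → ∀ c : ι → ℂ,
      ev Q (z + ∑ k, c k • f k) = ev Q z + ∑ k, c k * ev Q (f k) := fun {Q} hQ c => by
    have h1 := fun k => mem_of_LL (fM k) hQ
    rw [ev_add (mem_of_LL zM hQ) (sum_mem fun k _ => smul_mem _ (h1 k)),
      ev_sum _ fun k => smul_mem _ (h1 k)]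
    simp only [ev_smul _ (h1 _)]
  have zv : ∀ a, ev (Sum.elim p q a) z = 0 := fun a => ev_eq_zero (Or.inr (z1 a).ge)
  have hp : ∀ (c : ι → ℂ) j, ev (p j) z + ∑ k, c k * ev (p j) (f k) = c j := fun c j => by
    simp [hf, show ev (p j) z = 0 from zv (.inl j)]
  obtain ⟨c, ac, c0, hc, -⟩ := ift (f := fun (v : (ι → ℂ) × (ι → ℂ)) j =>
      ev (mv p v.1 j) z + ∑ k, v.2 k * ev (mv p v.1 j) (f k)) (x := 0) (y := 0)
    (analyticAt_pi_iff.2 fun j =>
      (an_fst (an_mv (x := p) (i := j) (mem_of_LL zM (M0 (.inl j))))).fun_add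
      (Finset.analyticAt_fun_sum _ fun k _ => (an_snd (an_pr k _)).fun_mul
        (an_fst (an_mv (x := p) (i := j) (mem_of_LL (fM k) (M0 (.inl j)))))))
    (L := .id ℂ _) ⟨.refl ℂ _, rfl⟩ (by simp only [mv0, hp]; exact hasFDerivAt_id _)
  simp only [mv0, hp] at hc
  have hq : ∀ i, ∃ w : (ι → ℂ) → ℂ, AnalyticAt ℂ w 0 ∧ w 0 = 0 ∧ ∀ᶠ s in 𝓝 0,
      ev ((ch (q i)).pt (w s)) z + ∑ k, c s k * ev ((ch (q i)).pt (w s)) (f k) = 0 := fun i => by
    obtain ⟨a, a0, ha⟩ := (ch (q i)).deriv_ne (z1 (.inr i))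
    obtain ⟨w, aw, w0, hw, -⟩ := ift1 (f := fun v : (ι → ℂ) × ℂ =>
        ev ((ch (q i)).pt v.2) z + ∑ k, c v.1 k * ev ((ch (q i)).pt v.2) (f k)) (x := 0) (y := 0)
      ((an_snd ((ch (q i)).an _ (mem_of_LL zM (M0 (.inr i)))).2).fun_add
        (Finset.analyticAt_fun_sum _ fun k _ => (an_fst (analyticAt_pi_iff.1 ac k)).fun_mul
        (an_snd ((ch (q i)).an _ (mem_of_LL (fM k) (M0 (.inr i)))).2))) a0 (by simpa [c0] using ha)
    refine ⟨w, aw, w0, ?_⟩
    simpa [c0, (ch (q i)).pt0, show ev (q i) z = 0 from zv (.inr i)] using hw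
  choose w aw w0 hw using hq
  have aφ : AnalyticAt ℂ (fun s i => w i s) 0 := analyticAt_pi_iff.2 aw
  have te : Tendsto (fun s => Sum.elim s fun i => w i s) (𝓝 0) (𝓝 (0 : ι ⊕ κ → ℂ)) := by
    refine tendsto_pi_nhds.2 fun a => ?_
    rcases a with j | i
    · exact (continuous_apply j).tendsto (0 : ι → ℂ)
    · simpa [ContinuousAt, w0] using (aw i).continuousAt
  refine ⟨_, aφ, funext w0, ?_⟩
  filter_upwards [hc, eventually_all.2 hw, te.eventually (ev_off M0),
    te.eventually (eventually_all.2 fun a => eventually_all.2 fun b => eventually_all.2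
      fun h : a ≠ b => ev_ne (tendsto_mv _ a) (tendsto_mv _ b) (hi.ne h))] with s h1 h2 h3 h4
  have h5 : z + ∑ k, c s k • f k ∈ LL ℂ M :=
    add_mem zM (sum_mem fun k _ => Submodule.smul_mem _ _ (fM k))
  have h6 : z + ∑ k, c s k • f k ≠ 0 := fun h => by
    have h7 : ∀ j, c s j = 0 := fun j => by
      rw [← hp (c s) j, ← hev (Q := p j) (M0 (.inl j)), h, ev_eq_zero (zero_mem _)]
    simp [h7, z0] at h
  have h7 : ∀ a, ev (mv (Sum.elim p q) (Sum.elim s fun i => w i s) a)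
      (z + ∑ k, c s k • f k) = 0 := fun a => by
    rw [hev (h3 a)]
    rcases a with j | i
    · exact congrFun h1 j
    · exact h2 i
  generalize z + ∑ k, c s k • f k = g at h5 h6 h7
  have h8 := eq_of_le_of_dg_le (sd_le (fun a b h => not_not.1 fun h' => h4 a b h' h)
    (D := M + dv ℂ g) (fun Q => by
      have := h5.resolve_left h6 Q
      rw [Finsupp.add_apply, dv_apply, Finsupp.zero_apply]
      omega) fun a => by
      rw [Finsupp.add_apply, h3, dv_apply, zero_add]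
      exact (mem_of_ev (mem_of_LL h5 (h3 a)) (h7 a)).resolve_left h6) (by
    have := congrArg dg hM
    rw [map_add, dg_dv, dg_sd] at this
    rw [map_add, dg_dv, dg_sd, this])
  have h9 : mv (Sum.elim p q) (Sum.elim s fun i => w i s) =
      Sum.elim (mv p s) (mv q fun i => w i s) := funext fun a => by rcases a <;> rfl
  rw [h9, sd_elim] at h8
  refine ⟨g * z⁻¹, mul_ne_zero h6 (inv_ne_zero z0), ?_⟩
  rw [h8, ← sd_elim, ← hM, dv_mul h6 (inv_ne_zero z0), dv_inv]
  abel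

/-- non-special divisors stay non-special -/
theorem ev_good {q : κ → Plk ℂ F} (hi : Injective q)
    (hl : Module.finrank ℂ (LL ℂ (can ℂ F - sd q)) = 0) :
    ∀ᶠ u in 𝓝 0, Module.finrank ℂ (LL ℂ (can ℂ F - sd (mv q u))) = 0 := by
  classical
  obtain ⟨z, z0, hz⟩ := exists_ord_eq (Finset.univ.image q) (can ℂ F)
  obtain ⟨M, hM⟩ : ∃ M, M + dv ℂ z = can ℂ F := ⟨_, sub_add_cancel _ _⟩
  have M0 : ∀ i, M (q i) = 0 := fun i => by
    have := DFunLike.congr_fun hM (q i)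
    rw [Finsupp.add_apply, dv_apply, hz _ (Finset.mem_image_of_mem _ (by simp))] at this
    omega
  have he : ∀ D, Module.finrank ℂ (LL ℂ (can ℂ F - D)) = 0 ↔ LL ℂ (M - D) = ⊥ := fun D => by
    rw [← hM, add_sub_right_comm, l_add_dv _ z0, Submodule.finrank_eq_zero]
  let b := Module.finBasis ℂ (LL ℂ M)
  have hb : ∀ {x : κ → Plk ℂ F}, (∀ i, M (x i) = 0) → ∀ (a : _ → ℂ) i,
      (∑ k, a k • fun i => ev (x i) (b k)) i = ev (x i) ((∑ k, a k • b k :) : F) := fun h a i => by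
    have h1 := fun k => mem_of_LL (b k).2 (h i)
    rw [Submodule.coe_sum]
    simp only [Submodule.coe_smul]
    rw [ev_sum _ fun k => smul_mem _ (h1 k)]
    simp [ev_smul _ (h1 _)]
  have h0 : LinearIndependent ℂ fun k i => ev (mv q 0 i) (b k : F) := by
    rw [mv0]
    refine Fintype.linearIndependent_iff.2 fun a ha =>
      Fintype.linearIndependent_iff.1 b.linearIndependent a (Subtype.ext ?_)
    have h1 := fun i => (hb M0 a i).symm.trans (congrFun ha i)
    generalize ∑ k, a k • b k = g at h1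
    refine (Submodule.eq_bot_iff _).1 ((he _).1 hl) _ (mem_LL_iff.2 fun Q => ?_)
    by_cases hQ : ∃ i, q i = Q
    · obtain ⟨i, rfl⟩ := hQ
      simpa [M0, sd_inj hi] using mem_of_ev (mem_of_LL g.2 (M0 i)) (h1 i)
    · simpa [sd_ne (not_exists.1 hQ)] using mem_LL_iff.1 g.2 Q
  have h1 : ContinuousAt (fun u k i => ev (mv q u i) (b k : F)) 0 :=
    continuousAt_pi.2 fun k => continuousAt_pi.2 fun i =>
      (an_mv (mem_of_LL (b k).2 (M0 i))).continuousAt
  filter_upwards [h1.eventually h0.eventually, ev_off M0] with u h2 h3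
  refine (he _).2 ((Submodule.eq_bot_iff _).2 fun g hg => ?_)
  have h4 : g ∈ LL ℂ M := LL_mono (sub_le_self _ (sd_nonneg _)) hg
  have h5 := b.sum_repr ⟨g, h4⟩
  have h6 := Fintype.linearIndependent_iff.1 h2 (b.repr ⟨g, h4⟩) (funext fun i => by
    rw [hb h3, h5]
    refine ev_eq_zero (Mge_mono _ ?_ (mem_LL_iff.1 hg _))
    simpa [h3] using one_le_sd _ i)
  simpa [h6] using congrArg Subtype.val h5.symm

/-- near a non-special divisor, equivalent divisors are equal -/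
theorem ev_inj {q : κ → Plk ℂ F} (hi : Injective q) (hκ : Fintype.card κ = gen ℂ F)
    (hl : Module.finrank ℂ (LL ℂ (can ℂ F - sd q)) = 0) :
    ∀ᶠ v : (κ → ℂ) × (κ → ℂ) in 𝓝 (0, 0),
      sd (mv q v.1) - sd (mv q v.2) ∈ prn ℂ F → v.1 = v.2 := by
  have t1 : Tendsto (fun p : (κ → ℂ) × (κ → ℂ) => p.1) (𝓝 (0, 0)) (𝓝 0) := continuous_fst.tendsto _
  have t2 : Tendsto (fun p : (κ → ℂ) × (κ → ℂ) => p.2) (𝓝 (0, 0)) (𝓝 0) := continuous_snd.tendsto _
  have ht : ∀ᶠ u : κ → ℂ in 𝓝 0, ∀ i, ev (mv q u i) (ch (q i)).t = u i := eventually_all.2 fun i =>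
    ((continuous_apply i).tendsto (0 : κ → ℂ)).eventually (ch (q i)).ev_t
  filter_upwards [t2.eventually (ev_good hi hl), t1.eventually ht, t2.eventually ht,
    eventually_all.2 fun a => eventually_all.2 fun b => eventually_all.2 fun h : a ≠ b =>
      ev_ne ((tendsto_mv q a).comp t2) ((tendsto_mv q b).comp t1) (hi.ne h)] with v h1 h2 h3 h4
  rintro ⟨g, g0, hg⟩
  have h5 : LL ℂ 0 = LL ℂ (sd (mv q v.2)) := Submodule.eq_of_le_of_finrank_eq
    (LL_mono (sd_nonneg _)) (by rw [l_zero, l_one hκ h1])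
  obtain ⟨a, rfl⟩ := LL_zero_le (k := ℂ) (z := g) (h5 ▸ Or.inr fun Q => by
    have h6 := sd_nonneg (mv q v.1) Q
    rw [← dv_apply, ← hg, Finsupp.sub_apply]
    simpa using h6)
  rw [dv_const, sub_eq_zero] at hg
  funext i
  by_contra h6
  have h7 := one_le_sd (mv q v.1) i
  rw [hg, sd_ne fun j hj => ?_] at h7
  · omega
  · by_cases h8 : j = i
    · exact h6 (by rw [← h2, ← h3, ← hj, h8])
    · exact h4 j i h8 hj

instance : Infinite (Plk ℂ F) := by
  obtain ⟨x, hx, -⟩ := CFF.ex (k := ℂ) (F := F)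
  have h : ∀ a, x ≠ algebraMap ℂ F a := by
    rintro a rfl
    exact hx (isAlgebraic_algebraMap a)
  choose P hP using fun c : ℂ => exists_zero (nc_sub h c)
  refine .of_injective P fun c d e => ?_
  rw [← ev_eq (P := P c) (Or.inr (hP c)), e, ev_eq (P := P d) (Or.inr (hP d))]

/-- non-special divisors in general position -/
theorem exists_good (S : Finset (Plk ℂ F)) : ∃ q : Fin (gen ℂ F) → Plk ℂ F, Injective q ∧
    (∀ i, q i ∉ S) ∧ Module.finrank ℂ (LL ℂ (can ℂ F - sd q)) = 0 := by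
  classical
  suffices h : ∀ n, ∃ q : Fin n → Plk ℂ F, Injective q ∧ (∀ i, q i ∉ S) ∧
      Module.finrank ℂ (LL ℂ (can ℂ F - sd q)) ≤ gen ℂ F - n by simpa using h (gen ℂ F)
  intro n
  induction n with
  | zero =>
    refine ⟨Fin.elim0, fun i => i.elim0, fun i => i.elim0, ?_⟩
    have := RR (0 : Plk ℂ F →₀ ℤ)
    rw [l_zero, map_zero] at this
    rw [sd, Fin.sum_univ_zero]
    omega
  | succ n ih =>
    obtain ⟨q, h1, h2, h3⟩ := ih
    obtain ⟨f, hf⟩ : ∃ f : F, LL ℂ (can ℂ F - sd q) ≠ ⊥ → f ∈ LL ℂ (can ℂ F - sd q) ∧ f ≠ 0 := by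
      by_cases h : LL ℂ (can ℂ F - sd q) = ⊥
      · exact ⟨0, fun h' => (h' h).elim⟩
      · exact ((Submodule.ne_bot_iff _).1 h).imp fun f hf _ => hf
    obtain ⟨Q, hQ⟩ := Infinite.exists_notMem_finset
      (S ∪ (Finset.univ.image q ∪ (can ℂ F - sd q + dv ℂ f).support))
    simp only [Finset.mem_union, not_or, Finsupp.notMem_support_iff] at hQ
    have e : can ℂ F - sd (Fin.cons Q q : Fin (n + 1) → _) =
        can ℂ F - sd q - Finsupp.single Q 1 := by
      simp only [sd, Fin.sum_univ_succ, Fin.cons_zero, Fin.cons_succ]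
      abel
    refine ⟨Fin.cons Q q, Fin.cons_injective_iff.2 ⟨by simpa using hQ.2.1, h1⟩,
      Fin.cases hQ.1 h2, ?_⟩
    have h4 := LL_mono (k := ℂ) (sub_le_self (can ℂ F - sd q)
      (Finsupp.single_nonneg.2 zero_le_one : 0 ≤ Finsupp.single Q (1 : ℤ)))
    rw [e]
    by_cases h : LL ℂ (can ℂ F - sd q) = ⊥
    · rw [le_bot_iff.1 (h4.trans h.le), finrank_bot]
      exact Nat.zero_le _
    · have h5 := Submodule.finrank_lt_finrank_of_lt (lt_of_le_of_ne h4 fun h5 => by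
        have h6 := (h5.ge (hf h).1).resolve_left (hf h).2 Q
        have h7 := hQ.2.2
        rw [Finsupp.sub_apply, Finsupp.single_eq_same] at h6
        rw [Finsupp.add_apply, dv_apply] at h7
        omega)
      omega

end Vale.Agent.P297Y.Jac
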