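import Vale.Agent.P025.R2.H816.Pic

/-!
# Values of functions at places; the compact space of places
-/

open Filter Topology Vale.Agent.P019P

namespace Vale.Agent.P297Y.Jac

variable {F : Type} [Field F] [Algebra ℂ F] [CFF ℂ F]

theorem mem_iff {P : Plk ℂ F} {f : F} : f ∈ P.1 ↔ f ∈ Mge P 0 := mem_iff_ord P f

omit [CFF ℂ F] in
theorem cst_mem (P : Plk ℂ F) (c : ℂ) : algebraMap ℂ F c ∈ P.1 := P.2.1 c

theorem mem_of_one {P : Plk ℂ F} {f : F} (h : f ∈ Mge P 1) : f ∈ P.1 :=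
  mem_iff.2 (Mge_mono P zero_le_one h)

theorem cst_eq_zero {P : Plk ℂ F} {c : ℂ} (h : algebraMap ℂ F c ∈ Mge P 1) : c = 0 := by
  rcases h with h | h
  · exact (map_eq_zero _).1 h
  · rw [ord_const] at h
    omega

open Classical in
/-- the value of a function at a place (zero at the poles) -/
noncomputable def ev (P : Plk ℂ F) (f : F) : ℂ :=
  if h : f ∈ P.1 then (exists_cst P h).choose else 0

theorem sub_ev {P : Plk ℂ F} {f : F} (h : f ∈ P.1) : f - algebraMap ℂ F (ev P f) ∈ Mge P 1 := by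
  rw [ev, dif_pos h]
  rcases (exists_cst P h).choose_spec with h1 | h1
  · exact Or.inl (sub_eq_zero.2 h1)
  · exact Or.inr h1

theorem mem_of_sub {P : Plk ℂ F} {f : F} {c : ℂ} (h : f - algebraMap ℂ F c ∈ Mge P 1) :
    f ∈ P.1 := by
  simpa using add_mem (mem_of_one h) (cst_mem P c)

theorem ev_eq {P : Plk ℂ F} {f : F} {c : ℂ} (h : f - algebraMap ℂ F c ∈ Mge P 1) :
    ev P f = c := by
  have h1 := sub_mem h (sub_ev (mem_of_sub h))
  rw [sub_sub_sub_cancel_left, ← map_sub] at h1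
  exact sub_eq_zero.1 (cst_eq_zero h1)

theorem ev_cst (P : Plk ℂ F) (c : ℂ) : ev P (algebraMap ℂ F c) = c := ev_eq (by simp)

theorem ev_one (P : Plk ℂ F) : ev P (1 : F) = 1 := ev_eq (by simp)

theorem ev_add {P : Plk ℂ F} {f g : F} (hf : f ∈ P.1) (hg : g ∈ P.1) :
    ev P (f + g) = ev P f + ev P g :=
  ev_eq (by convert add_mem (sub_ev hf) (sub_ev hg) using 1; rw [map_add]; ring)

theorem ev_sub {P : Plk ℂ F} {f g : F} (hf : f ∈ P.1) (hg : g ∈ P.1) :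
    ev P (f - g) = ev P f - ev P g :=
  ev_eq (by convert sub_mem (sub_ev hf) (sub_ev hg) using 1; rw [map_sub]; ring)

theorem ev_mul {P : Plk ℂ F} {f g : F} (hf : f ∈ P.1) (hg : g ∈ P.1) :
    ev P (f * g) = ev P f * ev P g := by
  have h1 := mul_mem_Mge (sub_ev hf) (mem_iff.1 hg)
  have h2 := mul_mem_Mge (mem_iff.1 (cst_mem P (ev P f))) (sub_ev hg)
  rw [add_zero] at h1
  rw [zero_add] at h2
  exact ev_eq (by convert add_mem h1 h2 using 1; rw [map_mul]; ring)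

omit [CFF ℂ F] in
theorem smul_mem {P : Plk ℂ F} {f : F} (c : ℂ) (hf : f ∈ P.1) : c • f ∈ P.1 := by
  rw [Algebra.smul_def]
  exact mul_mem (cst_mem P c) hf

theorem ev_smul {P : Plk ℂ F} {f : F} (c : ℂ) (hf : f ∈ P.1) : ev P (c • f) = c * ev P f := by
  rw [Algebra.smul_def, ev_mul (cst_mem P c) hf, ev_cst]

theorem ev_eq_zero {P : Plk ℂ F} {f : F} (h : f ∈ Mge P 1) : ev P f = 0 := ev_eq (by simpa using h)

theorem mem_of_ev {P : Plk ℂ F} {f : F} (hf : f ∈ P.1) (h : ev P f = 0) : f ∈ Mge P 1 := by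
  simpa [h] using sub_ev hf

theorem ev_sum {P : Plk ℂ F} {ι : Type*} (s : Finset ι) {f : ι → F} (hf : ∀ i, f i ∈ P.1) :
    ev P (∑ i ∈ s, f i) = ∑ i ∈ s, ev P (f i) :=
  ev_eq (by
    rw [map_sum, ← Finset.sum_sub_distrib]
    exact Submodule.sum_mem _ fun i _ => sub_ev (hf i))

theorem inv_mem_of {P : Plk ℂ F} {f : F} (h : f ∉ Mge P 1) : f⁻¹ ∈ P.1 := by
  rw [mem_Mge, not_or] at h
  refine mem_iff.2 (Or.inr ?_)
  rw [ord_inv]
  omega

theorem inv_mem_of_ev {P : Plk ℂ F} {f : F} (h : ev P f ≠ 0) : f⁻¹ ∈ P.1 :=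
  inv_mem_of fun h1 => h (ev_eq_zero h1)

theorem inv_mem_one {P : Plk ℂ F} {f : F} (h : f ∉ P.1) : f⁻¹ ∈ Mge P 1 := by
  rw [mem_iff, mem_Mge, not_or] at h
  refine Or.inr ?_
  rw [ord_inv]
  omega

theorem mem_of_ev_ne {P : Plk ℂ F} {f : F} (h : ev P f ≠ 0) : f ∈ P.1 := by
  by_contra h1
  exact h (dif_neg h1)

theorem ev_inv {P : Plk ℂ F} {f : F} (h : ev P f ≠ 0) : ev P f⁻¹ = (ev P f)⁻¹ := by
  have h0 : f ≠ 0 := by
    rintro rfl
    exact h (ev_eq_zero (zero_mem _))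
  have := ev_mul (mem_of_ev_ne h) (inv_mem_of_ev h)
  rw [mul_inv_cancel₀ h0, ev_one] at this
  exact eq_inv_of_mul_eq_one_right this.symm

/-- the classical topology of the space of places -/
instance topPlk : TopologicalSpace (Plk ℂ F) :=
  .generateFrom {s | ∃ (f : F) (U : Set ℂ), IsOpen U ∧ s = {Q | f ∈ Q.1 ∧ ev Q f ∈ U}}

theorem nhds_val {P : Plk ℂ F} {f : F} (hf : f ∈ P.1) {U : Set ℂ} (hU : U ∈ 𝓝 (ev P f)) :
    ∀ᶠ Q in 𝓝 P, f ∈ Q.1 ∧ ev Q f ∈ U := by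
  obtain ⟨V, h1, h2, h3⟩ := mem_nhds_iff.1 hU
  have h4 : IsOpen {Q : Plk ℂ F | f ∈ Q.1 ∧ ev Q f ∈ V} :=
    TopologicalSpace.isOpen_generateFrom_of_mem ⟨f, V, h2, rfl⟩
  filter_upwards [h4.mem_nhds ⟨hf, h3⟩] with Q hQ using ⟨hQ.1, h1 hQ.2⟩

theorem tendsto_plk {α : Type*} {L : Filter α} {x : α → Plk ℂ F} {P : Plk ℂ F}
    (h : ∀ f ∈ P.1, (∀ᶠ a in L, f ∈ (x a).1) ∧ Tendsto (fun a => ev (x a) f) L (𝓝 (ev P f))) :
    Tendsto x L (𝓝 P) := by
  refine TopologicalSpace.tendsto_nhds_generateFrom_iff.2 ?_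
  rintro _ ⟨f, U, hU, rfl⟩ ⟨h1, h2⟩
  exact (h f h1).1.and ((h f h1).2.eventually (hU.mem_nhds h2))

instance : T2Space (Plk ℂ F) := by
  classical
  refine t2_iff_nhds.2 fun {P Q} h => ?_
  by_contra hne
  obtain ⟨z, hz⟩ := weak_appr {P, Q} (fun R => if R = P then 0 else 1) 1
  have h1 := hz P (by simp)
  have h2 := hz Q (by simp)
  rw [if_pos rfl, ← map_zero (algebraMap ℂ F)] at h1
  rw [if_neg (Ne.symm hne), ← map_one (algebraMap ℂ F)] at h2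
  obtain ⟨U, hU, V, hV, hd⟩ := (Filter.disjoint_iff.1 (disjoint_nhds_nhds.2 (zero_ne_one' ℂ)))
  rw [← ev_eq h1] at hU
  rw [← ev_eq h2] at hV
  obtain ⟨R, h3, h4⟩ := (((nhds_val (mem_of_sub h1) hU).filter_mono inf_le_left).and
    ((nhds_val (mem_of_sub h2) hV).filter_mono (inf_le_right (a := 𝓝 P)))).exists
  exact Set.disjoint_left.1 hd h3.2 h4.2

instance : CompactSpace (Plk ℂ F) := by
  refine ⟨isCompact_iff_ultrafilter_le_nhds.2 fun 𝒰 _ => ?_⟩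
  let V : ValuationSubring F :=
    { carrier := {f | ∃ C : ℝ, ∀ᶠ Q in (𝒰 : Filter (Plk ℂ F)), f ∈ Q.1 ∧ ‖ev Q f‖ ≤ C}
      mul_mem' := by
        rintro f g ⟨C, hC⟩ ⟨D, hD⟩
        refine ⟨C * D, (hC.and hD).mono fun Q h => ⟨mul_mem h.1.1 h.2.1, ?_⟩⟩
        rw [ev_mul h.1.1 h.2.1, norm_mul]
        exact mul_le_mul h.1.2 h.2.2 (norm_nonneg _) ((norm_nonneg _).trans h.1.2)
      one_mem' := ⟨1, .of_forall fun Q => ⟨one_mem _, by rw [ev_one, norm_one]⟩⟩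
      add_mem' := by
        rintro f g ⟨C, hC⟩ ⟨D, hD⟩
        refine ⟨C + D, (hC.and hD).mono fun Q h => ⟨add_mem h.1.1 h.2.1, ?_⟩⟩
        rw [ev_add h.1.1 h.2.1]
        exact norm_add_le_of_le h.1.2 h.2.2
      zero_mem' := ⟨0, .of_forall fun Q => ⟨zero_mem _, by simp [ev_eq_zero (zero_mem _)]⟩⟩
      neg_mem' := by
        rintro f ⟨C, hC⟩
        refine ⟨C, hC.mono fun Q h => ⟨neg_mem h.1, ?_⟩⟩
        rw [← neg_one_smul ℂ f, ev_smul _ h.1]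
        simpa using h.2
      mem_or_inv_mem' := fun f => by
        rcases 𝒰.em fun Q => f ∈ Q.1 ∧ ‖ev Q f‖ ≤ 1 with h | h
        · exact Or.inl ⟨1, h⟩
        refine Or.inr ⟨1, h.mono fun Q hQ => ?_⟩
        by_cases h1 : f ∈ Q.1
        · have h2 : 1 < ‖ev Q f‖ := not_le.1 fun h2 => hQ ⟨h1, h2⟩
          have h3 : ev Q f ≠ 0 := by
            rintro h3
            rw [h3, norm_zero] at h2
            linarith
          refine ⟨inv_mem_of_ev h3, ?_⟩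
          rw [ev_inv h3, norm_inv]
          exact inv_le_one_of_one_le₀ h2.le
        · exact ⟨mem_of_one (inv_mem_one h1), by simp [ev_eq_zero (inv_mem_one h1)]⟩ }
  have key : ∀ f ∈ V, ∃ c : ℂ, Tendsto (fun Q => ev Q f) 𝒰 (𝓝 c) ∧
      (f - algebraMap ℂ F c ≠ 0 → (f - algebraMap ℂ F c)⁻¹ ∉ V) := by
    rintro f ⟨C, hC⟩
    obtain ⟨c, -, hc⟩ := (isCompact_closedBall (0 : ℂ) C).ultrafilter_le_nhds
      (𝒰.map fun Q => ev Q f) (le_principal_iff.2 (hC.mono fun Q h => by simpa using h.2))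
    refine ⟨c, hc, fun h0 ⟨D, hD⟩ => ?_⟩
    have h1 : Tendsto (fun Q => ‖ev Q f - c‖ * D) 𝒰 (𝓝 0) := by
      simpa using (tendsto_iff_norm_sub_tendsto_zero.1 hc).mul_const D
    obtain ⟨Q, h2, h3, h4⟩ := ((h1.eventually (gt_mem_nhds zero_lt_one)).and (hC.and hD)).exists
    have h5 := ev_mul (sub_mem h3.1 (cst_mem Q c)) h4.1
    rw [mul_inv_cancel₀ h0, ev_one, ev_sub h3.1 (cst_mem Q c), ev_cst] at h5
    have h6 := congrArg norm h5
    rw [norm_one, norm_mul] at h6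
    exact (h6.le.trans (mul_le_mul_of_nonneg_left h4.2 (norm_nonneg _))).not_gt h2
  let P : Plk ℂ F := ⟨V, fun a => ⟨‖a‖, .of_forall fun Q => ⟨cst_mem Q a, by rw [ev_cst]⟩⟩,
    fun h => by
      obtain ⟨x, hx, -⟩ := CFF.ex (k := ℂ) (F := F)
      obtain ⟨c, -, hc⟩ := key x (by rw [h]; trivial)
      refine hc (fun h1 => hx ?_) (by rw [h]; trivial)
      rw [sub_eq_zero.1 h1]
      exact isAlgebraic_algebraMap c⟩
  refine ⟨P, trivial, tendsto_plk (x := id) fun f hf => ?_⟩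
  obtain ⟨c, h1, h2⟩ := key f hf
  obtain ⟨C, hC⟩ := hf
  refine ⟨hC.mono fun Q h => h.1, ?_⟩
  rwa [ev_eq (c := c)]
  by_contra h3
  exact h2 (fun h4 => h3 (Or.inl h4)) (inv_mem_of h3)

end Vale.Agent.P297Y.Jac
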