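import Vale.Agent.P297Y.Jac.An

/-!
# The class group of degree zero is a complex torus, and the Abel–Jacobi map is holomorphic
-/

open Filter Topology Function Vale.Agent.P019P P025H816

namespace Vale.Agent.P297Y.Jac

/-- the class group -/
def PC (F : Type) [Field F] [Algebra ℂ F] [CFF ℂ F] : Type := (Plk ℂ F →₀ ℤ) ⧸ prn ℂ F

variable {F : Type} [Field F] [Algebra ℂ F] [CFF ℂ F] {ι κ : Type} [Fintype ι] [Fintype κ]

noncomputable instance : AddCommGroup (PC F) :=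
  inferInstanceAs (AddCommGroup ((Plk ℂ F →₀ ℤ) ⧸ prn ℂ F))

/-- the class of a divisor -/
noncomputable def cl : (Plk ℂ F →₀ ℤ) →+ PC F := QuotientAddGroup.mk' _

theorem cl_eq_zero {D : Plk ℂ F →₀ ℤ} : cl D = 0 ↔ D ∈ prn ℂ F := QuotientAddGroup.eq_zero_iff D

/-- the class of a place -/
noncomputable def cp (P : Plk ℂ F) : PC F := cl (Finsupp.single P 1)

/-- the displacement of a place in its chart -/
noncomputable def ps (P : Plk ℂ F) (s : ℂ) : PC F := cp ((ch P).pt s) - cp P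

theorem sum_ps (x : ι → Plk ℂ F) (s : ι → ℂ) :
    ∑ i, ps (x i) (s i) = cl (sd (mv x s)) - cl (sd x) := by
  simp [ps, cp, sd, mv]

theorem exists_cmp' {p : ι → Plk ℂ F} {q : κ → Plk ℂ F} (hp : Injective p) (hq : Injective q)
    (h : ∀ j i, p j ≠ q i) (hκ : Fintype.card κ = gen ℂ F)
    (hl : Module.finrank ℂ (LL ℂ (can ℂ F - sd q)) = 0) :
    ∃ φ : (ι → ℂ) → κ → ℂ, AnalyticAt ℂ φ 0 ∧ φ 0 = 0 ∧
      ∀ᶠ s in 𝓝 0, ∑ i, ps (q i) (φ s i) = -∑ j, ps (p j) (s j) := by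
  obtain ⟨φ, h1, h2, h3⟩ := exists_cmp (hp.sumElim hq h) hκ hl
  refine ⟨φ, h1, h2, h3.mono fun s hs => ?_⟩
  rw [← cl_eq_zero, map_sub, map_add, map_add] at hs
  rw [sum_ps, sum_ps, eq_neg_iff_add_eq_zero, ← hs]
  abel

theorem tendsto_of_an {E G : Type*} [NormedAddCommGroup E] [NormedSpace ℂ E]
    [NormedAddCommGroup G] [NormedSpace ℂ G] {f : E → G} {x : E} {y : G} (h : AnalyticAt ℂ f x)
    (h0 : f x = y) : Tendsto f (𝓝 x) (𝓝 y) := h0 ▸ h.continuousAt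

/-- the exponential map -/
theorem exists_exp : ∃ E : (Fin (gen ℂ F) → ℂ) →+ PC F, (∀ᶠ v in 𝓝 0, E v = 0 → v = 0) ∧
    ∀ P, ∃ Φ : ℂ → Fin (gen ℂ F) → ℂ, AnalyticAt ℂ Φ 0 ∧ Φ 0 = 0 ∧
      ∀ᶠ s in 𝓝 0, E (Φ s) = ps P s := by
  classical
  have hc := Fintype.card_fin (gen ℂ F)
  obtain ⟨q, i0, -, l0⟩ := exists_good (F := F) ∅
  obtain ⟨q1, i1, d1, l1⟩ := exists_good (Finset.univ.image q)
  obtain ⟨q2, i2, d2, l2⟩ := exists_good (Finset.univ.image q ∪ Finset.univ.image q1)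
  simp only [Finset.mem_union, Finset.mem_image, Finset.mem_univ, true_and, not_or,
    not_exists] at d1 d2
  obtain ⟨φ1, a1, z1, h1⟩ := exists_cmp' i0 i1 (fun j i => d1 i j) hc l1
  obtain ⟨φ2, a2, z2, h2⟩ := exists_cmp' i0 i2 (fun j i => (d2 i).1 j) hc l2
  obtain ⟨φ3, a3, z3, h3⟩ := exists_cmp' (i1.sumElim i2 fun j i => (d2 i).2 j) i0
    (Sum.rec (fun j i e => d1 j i e.symm) fun j i e => (d2 j).1 i e.symm) hc l0
  let ν : (Fin (gen ℂ F) → ℂ) × (Fin (gen ℂ F) → ℂ) → Fin (gen ℂ F) ⊕ Fin (gen ℂ F) → ℂ :=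
    fun p => Sum.elim (φ1 p.1) (φ2 p.2)
  have aν : AnalyticAt ℂ ν (0, 0) := analyticAt_pi_iff.2 (Sum.rec
    (fun i => an_fst (analyticAt_pi_iff.1 a1 i)) fun i => an_snd (analyticAt_pi_iff.1 a2 i))
  have zν : ν (0, 0) = 0 := by simp [ν, z1, z2]
  obtain ⟨E, l, al, zl, hE, hE0⟩ := lin (fun i => ps (q i)) (fun i => by simp [ps, Ch.pt0])
    ((ev_inj i0 hc l0).mono fun v hv h => hv (by
      rwa [sum_ps, sum_ps, sub_left_inj, ← sub_eq_zero, ← map_sub, cl_eq_zero] at h))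
    (fun p => φ3 (ν p)) (a3.comp_of_eq aν zν) (by rw [zν, z3]) (by
      filter_upwards [(tendsto_of_an aν zν).eventually h3, (continuous_fst.tendsto _).eventually h1,
        (continuous_snd.tendsto _).eventually h2] with p e3 e1 e2
      rw [e3, Fintype.sum_sum_type]
      simp only [ν, Sum.elim_inl, Sum.elim_inr, e1, e2]
      abel)
  refine ⟨E, hE0, fun P => ?_⟩
  obtain ⟨q4, i4, d4, l4⟩ := exists_good (insert P (Finset.univ.image q))
  simp only [Finset.mem_insert, Finset.mem_image, Finset.mem_univ, true_and, not_or,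
    not_exists] at d4
  obtain ⟨φ4, a4, z4, h4⟩ := exists_cmp' (p := fun _ : Unit => P) (injective_of_subsingleton _) i4
    (fun _ i e => (d4 i).1 e.symm) hc l4
  obtain ⟨φ5, a5, z5, h5⟩ := exists_cmp' i4 i0 (fun j i e => (d4 j).2 i e.symm) hc l0
  have a6 : AnalyticAt ℂ (fun (s : ℂ) (_ : Unit) => s) 0 := analyticAt_pi_iff.2 fun _ => analyticAt_id
  have a7 : AnalyticAt ℂ (fun s : ℂ => φ4 fun _ => s) 0 := a4.comp_of_eq a6 rfl
  have a8 : AnalyticAt ℂ (fun s : ℂ => φ5 (φ4 fun _ => s)) 0 := a5.comp_of_eq a7 z4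
  have z8 : φ5 (φ4 fun _ => 0) = 0 := (congrArg φ5 z4).trans z5
  refine ⟨fun s => l (φ5 (φ4 fun _ => s)), al.comp_of_eq a8 z8, (congrArg l z8).trans zl, ?_⟩
  filter_upwards [(tendsto_of_an a8 z8).eventually hE, (tendsto_of_an a7 z4).eventually h5,
    (tendsto_of_an a6 rfl).eventually h4] with s e1 e2 e3
  simp [e1, e2, e3]

/-- the degree of a class -/
noncomputable def dgc : PC F →+ ℤ := QuotientAddGroup.lift _ dg (by
  rintro _ ⟨z, -, rfl⟩
  exact dg_dv z)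

theorem dgc_cl (D : Plk ℂ F →₀ ℤ) : dgc (cl D) = dg D := rfl

theorem cl_surj (x : PC F) : ∃ D, cl D = x := QuotientAddGroup.mk'_surjective _ x

theorem exists_div {x : PC F} (hx : dgc x = 0) {n : ℕ} (hn : n ≠ 0) :
    ∃ y, dgc y = 0 ∧ x = n • y := by
  obtain ⟨D, rfl⟩ := cl_surj x
  obtain ⟨D', h1, h2⟩ := pic0_div (k := ℂ) (n := n) (by exact_mod_cast hn) D hx
  exact ⟨cl D', h1, by rwa [← cl_eq_zero, map_sub, map_nsmul, sub_eq_zero] at h2⟩

theorem cl_single (P : Plk ℂ F) (n : ℤ) : cl (Finsupp.single P n) = n • cp P := by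
  rw [cp, ← map_zsmul, Finsupp.smul_single_one]

theorem dgc_cp (P : Plk ℂ F) : dgc (cp P) = 1 := dg_sgl P 1

/-- the exponential map is onto, with bounded lifts -/
theorem exp_onto {V : Type} [NormedAddCommGroup V] (E : V →+ PC F)
    (h : ∀ P, ∀ᶠ Q in 𝓝 P, ∃ v, ‖v‖ ≤ 1 ∧ E v = cp Q - cp P) :
    ∃ R : ℝ, ∀ x, dgc x = 0 → ∃ v, ‖v‖ ≤ R ∧ E v = x := by
  classical
  obtain ⟨P₀⟩ := nonempty_Plk ℂ F
  obtain ⟨T, hT⟩ := CompactSpace.elim_nhds_subcover _ h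
  have hT' : ∀ Q, ∃ P ∈ T, ∃ v, ‖v‖ ≤ 1 ∧ E v = cp Q - cp P := fun Q => by
    simpa using hT.ge (Set.mem_univ Q)
  let N' := Submodule.span ℤ ((T.image fun P => cp P - cp P₀ : Finset (PC F)) : Set (PC F))
  have h1 : ∀ D, cl D - dg D • cp P₀ ∈ LinearMap.range E.toIntLinearMap ⊔ N' := fun D => by
    induction D using Finsupp.induction_linear with
    | zero => simp
    | add f g hf hg =>
      convert add_mem hf hg using 1
      rw [map_add, map_add, add_smul]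
      abel
    | single Q n =>
      obtain ⟨P, hP, v, -, hv⟩ := hT' Q
      rw [cl_single, dg_sgl, ← smul_sub, ← sub_add_sub_cancel _ (cp P)]
      exact Submodule.smul_mem _ _ (Submodule.add_mem_sup ⟨v, hv⟩
        (Submodule.subset_span (Finset.mem_coe.2 (Finset.mem_image_of_mem _ hP))))
  obtain ⟨r, r1, hr⟩ := Submodule.exists_sub_one_mem_and_smul_le_of_fg_of_le_sup
    (I := Ideal.span {(2 : ℤ)}) (N := LinearMap.range E.toIntLinearMap) (N' := N')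
    (P := LinearMap.ker dgc.toIntLinearMap) ⟨_, rfl⟩ (Submodule.span_le.2 fun x hx => by
      obtain ⟨P, -, rfl⟩ := Finset.mem_image.1 (Finset.mem_coe.1 hx)
      simp [dgc_cp]) fun x hx => by
      obtain ⟨y, hy, rfl⟩ := exists_div hx two_ne_zero
      obtain ⟨D, rfl⟩ := cl_surj y
      obtain ⟨a, ha, b, hb, e⟩ := Submodule.mem_sup.1 (h1 D)
      rw [show dg D = 0 from hy, zero_smul, sub_zero] at e
      rw [← e, smul_add]
      refine Submodule.add_mem_sup (nsmul_mem ha 2) ?_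
      exact_mod_cast Submodule.smul_mem_smul (Ideal.mem_span_singleton_self (2 : ℤ)) hb
  have r0 : r.natAbs ≠ 0 := by
    rw [Ideal.mem_span_singleton] at r1
    omega
  have h2 : ∀ P, ∃ v, E v = cp P - cp P₀ := fun P => by
    obtain ⟨y, hy, e⟩ := exists_div (x := cp P - cp P₀) (by simp [dgc_cp]) r0
    obtain ⟨v, hv⟩ := hr (Submodule.smul_mem_pointwise_smul y r _ hy)
    refine ⟨r.sign • v, ?_⟩
    rw [map_zsmul, show E v = r • y from hv, e, smul_smul, Int.sign_mul_self, natCast_zsmul]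
  choose w hw using h2
  have h3 : ∀ D : Plk ℂ F →₀ ℤ, 0 ≤ D → ∃ v, ‖v‖ ≤ dg D * (1 + ∑ P ∈ T, ‖w P‖) ∧
      E v = cl D - dg D • cp P₀ := fun D hD => by
    refine dv_induct (motive := fun D => ∃ v, ‖v‖ ≤ dg D * (1 + ∑ P ∈ T, ‖w P‖) ∧
      E v = cl D - dg D • cp P₀) ⟨0, by simp, by simp⟩ ?_ hD
    rintro D Q - ⟨v, v1, v2⟩
    obtain ⟨P, hP, v', v3, v4⟩ := hT' Q
    have h4 := Finset.single_le_sum (f := fun P => ‖w P‖) (fun _ _ => norm_nonneg _) hP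
    refine ⟨v + v' + w P, norm_add₃_le.trans ?_, ?_⟩
    · rw [map_add, dg_sgl]
      push_cast
      linarith
    · rw [map_add, map_add, v2, v4, hw, map_add, map_add, dg_sgl, add_smul, one_smul, ← cp]
      abel
  refine ⟨gen ℂ F * (1 + ∑ P ∈ T, ‖w P‖), fun x hx => ?_⟩
  obtain ⟨D, rfl⟩ := cl_surj x
  have h4 : dg (D + Finsupp.single P₀ (gen ℂ F : ℤ)) = gen ℂ F := by
    rw [map_add, show dg D = 0 from hx, dg_sgl, zero_add]
  obtain ⟨z, z0, hz⟩ := exists_ne_zero_of_l (k := ℂ) (D := D + Finsupp.single P₀ (gen ℂ F : ℤ)) (by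
    have := RR (D + Finsupp.single P₀ (gen ℂ F : ℤ))
    omega)
  obtain ⟨v, v1, v2⟩ := h3 _ hz
  rw [map_add dg, h4, dg_dv, add_zero] at v1 v2
  refine ⟨v, by exact_mod_cast v1, ?_⟩
  rw [v2, map_add, map_add, cl_eq_zero.2 ⟨z, z0, rfl⟩, cl_single]
  abel

/-- **The Jacobian.** There is a complex torus with a holomorphic map from the curve which
identifies the class group of degree zero with the torus. -/
theorem JAC (F : Type) [Field F] [Algebra ℂ F] [CFF ℂ F] :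
    ∃ (Λ : Submodule ℤ (Fin (gen ℂ F) → ℂ)) (_ : DiscreteTopology Λ) (_ : IsZLattice ℝ Λ)
      (a : Plk ℂ F → (Fin (gen ℂ F) → ℂ) ⧸ Λ),
      (∀ D : Plk ℂ F →₀ ℤ, dg D = 0 → ((D.sum fun P n => n • a P) = 0 ↔ D ∈ prn ℂ F)) ∧
      (∀ y, ∃ D : Plk ℂ F →₀ ℤ, dg D = 0 ∧ (D.sum fun P n => n • a P) = y) ∧
      ∀ P : Plk ℂ F, ∃ (t u : F) (c : ℂ) (ε : ℝ) (Φ : ℂ → Fin (gen ℂ F) → ℂ), 0 < ε ∧
        ord P t = 1 ∧ u - algebraMap ℂ F c ∈ Mge P 1 ∧ AnalyticOnNhd ℂ Φ (Metric.ball 0 ε) ∧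
        ∀ (Q : Plk ℂ F) (s y : ℂ), t - algebraMap ℂ F s ∈ Mge Q 1 →
          u - algebraMap ℂ F y ∈ Mge Q 1 → ‖s‖ < ε → ‖y - c‖ < ε → a Q = Λ.mkQ (Φ s) := by
  obtain ⟨E, hE0, hE⟩ := exists_exp (F := F)
  choose Φ aΦ zΦ hΦ using hE
  obtain ⟨R, hR⟩ := exp_onto E fun P => by
    have h1 : Tendsto (fun Q : Plk ℂ F => ev Q (ch P).t) (𝓝 P) (𝓝 0) := fun U hU =>
      (nhds_val (mem_of_one (ch P).t_mem) (by rwa [ev_eq_zero (ch P).t_mem])).mono fun Q h => h.2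
    filter_upwards [(ch P).nhds, h1.eventually (hΦ P), ((tendsto_of_an (aΦ P) (zΦ P)).comp
      h1).eventually (Metric.closedBall_mem_nhds 0 one_pos)] with Q e1 e2 e3
    exact ⟨_, by simpa using e3, by rw [e2, ps, ← e1]⟩
  have hd : ∀ v, dgc (E v) = 0 := fun v => by
    have h1 : ∀ n : ℕ, n ≠ 0 → (n : ℤ) ∣ dgc (E v) := fun n hn => ⟨dgc (E ((n : ℂ)⁻¹ • v)), by
      rw [← nsmul_eq_mul, ← map_nsmul, ← map_nsmul, ← Nat.cast_smul_eq_nsmul ℂ,
        smul_inv_smul₀ (by exact_mod_cast hn)]⟩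
    exact Int.eq_zero_of_dvd_of_natAbs_lt_natAbs (h1 ((dgc (E v)).natAbs + 1) (by omega))
      (by omega)
  obtain ⟨P₀⟩ := nonempty_Plk ℂ F
  choose w hw using fun P => (hR (cp P - cp P₀) (by simp [dgc_cp])).imp fun _ h => h.2
  let Λ := LinearMap.ker E.toIntLinearMap
  have hΛ : ∀ v v', Λ.mkQ v = Λ.mkQ v' ↔ E v = E v' := fun v v' => by
    rw [Submodule.mkQ_apply, Submodule.mkQ_apply, Submodule.Quotient.eq, ← sub_eq_zero, ← map_sub]
    rfl
  have hs : ∀ D : Plk ℂ F →₀ ℤ, ∃ v, (D.sum fun P n => n • Λ.mkQ (w P)) = Λ.mkQ v ∧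
      E v = cl D - dg D • cp P₀ := fun D => by
    induction D using Finsupp.induction_linear with
    | zero => exact ⟨0, by simp, by simp⟩
    | add f g hf hg =>
      obtain ⟨v, v1, v2⟩ := hf
      obtain ⟨v', v3, v4⟩ := hg
      refine ⟨v + v', ?_, ?_⟩
      · rw [Finsupp.sum_add_index' (by simp) (by simp [add_smul]), v1, v3, map_add]
      · rw [map_add, v2, v4, map_add, map_add, add_smul]
        abel
    | single Q n =>
      exact ⟨n • w Q, by rw [Finsupp.sum_single_index (by simp), map_smul],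
        by rw [map_zsmul, hw, cl_single, dg_sgl, smul_sub]⟩
  have hdisc : DiscreteTopology Λ := discreteTopology_of_isOpen_singleton_zero
    (isOpen_iff_mem_nhds.2 fun x hx => by
      rw [Set.mem_singleton_iff.1 hx]
      exact ((continuous_subtype_val.tendsto (0 : Λ)).eventually hE0).mono
        fun v hv => Subtype.ext (hv v.2))
  refine ⟨Λ, hdisc, ⟨eq_top_iff.2 fun v _ => ?_⟩, fun P => Λ.mkQ (w P), fun D hD => ?_,
    fun y => ?_, fun P => ?_⟩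
  · refine (Submodule.span ℝ (Λ : Set (Fin (gen ℂ F) → ℂ))).closed_of_finiteDimensional.closure_subset
      (Metric.mem_closure_iff.2 fun ε hε => ?_)
    obtain ⟨n, hn⟩ := exists_nat_gt (|R| / ε)
    have n0 : (0 : ℝ) < n := (div_nonneg (abs_nonneg R) hε.le).trans_lt hn
    obtain ⟨v', v1, v2⟩ := hR _ (hd (n • v))
    refine ⟨(n : ℝ)⁻¹ • (n • v - v'), Submodule.smul_mem _ _ (Submodule.subset_span ?_), ?_⟩
    · change E _ = 0
      rw [map_sub, v2, sub_self]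
    · rw [smul_sub, ← Nat.cast_smul_eq_nsmul ℝ, inv_smul_smul₀ n0.ne', dist_self_sub_right,
        norm_smul, norm_inv, Real.norm_natCast, inv_mul_lt_iff₀ n0]
      exact (v1.trans (le_abs_self R)).trans_lt ((div_lt_iff₀ hε).1 hn)
  · obtain ⟨v, v1, v2⟩ := hs D
    rw [v1, ← map_zero Λ.mkQ, hΛ, v2, hD, zero_smul, sub_zero, map_zero, cl_eq_zero]
  · obtain ⟨v, rfl⟩ := Λ.mkQ_surjective y
    obtain ⟨D, hD⟩ := cl_surj (E v)
    have h1 : dg D = 0 := by rw [← dgc_cl, hD, hd]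
    obtain ⟨v', v1, v2⟩ := hs D
    exact ⟨D, h1, by rw [v1, hΛ, v2, h1, zero_smul, sub_zero, hD]⟩
  · obtain ⟨ε, ε0, hε⟩ := Metric.eventually_nhds_iff.1 ((ch P).nb.and
      ((continuous_fst.tendsto _).eventually ((hΦ P).and (aΦ P).eventually_analyticAt)))
    refine ⟨(ch P).t, (ch P).u, ev P (ch P).u, ε, fun s => w P + Φ P s, ε0, (ch P).ord_t,
      sub_ev (ch P).u_mem, fun s hs => analyticAt_const.fun_add
        (hε (y := (s, ev P (ch P).u)) (by simpa [Prod.dist_eq, ε0] using hs)).2.2,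
      fun Q s y h1 h2 h3 h4 => ?_⟩
    obtain ⟨h5, h6, -⟩ := hε (y := (s, y)) (by simp [dist_eq_norm, h3, h4])
    rw [hΛ, map_add, hw, hw, h6, ps, ← h5 Q (mem_of_sub h1) (mem_of_sub h2) (ev_eq h1) (ev_eq h2)]
    abel

end Vale.Agent.P297Y.Jac
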