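import Vale.Agent.P297Y.Jac.Ev
import Vale.Agent.P025.R2.H816.J04

/-!
# A plane model of a function field which is smooth at a given place
-/

open Filter Topology Polynomial Vale.Agent.P019P

namespace Vale.Agent.P297Y.Jac

theorem ind2 {M : ℂ[X][X] → Prop} (hC : ∀ c : ℂ, M (C (C c))) (hX : M (C X)) (hY : M X)
    (ha : ∀ p q, M p → M q → M (p + q)) (hm : ∀ p q, M p → M q → M (p * q)) (p : ℂ[X][X]) :
    M p := by
  have h1 : ∀ q : ℂ[X], M (C q) := fun q => by
    induction q using Polynomial.induction_on with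
    | C a => exact hC a
    | add p q hp hq => rw [map_add]; exact ha _ _ hp hq
    | monomial n a h => rw [pow_succ, ← mul_assoc, map_mul]; exact hm _ _ h hX
  induction p using Polynomial.induction_on with
  | C a => exact h1 a
  | add p q hp hq => exact ha _ _ hp hq
  | monomial n a h => rw [pow_succ, ← mul_assoc]; exact hm _ _ h hY

theorem an_evalEval (p : ℂ[X][X]) (x : ℂ × ℂ) :
    AnalyticAt ℂ (fun v : ℂ × ℂ => p.evalEval v.1 v.2) x := by
  induction p using ind2 with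
  | hC c => simpa [evalEval_C] using analyticAt_const
  | hX => simpa [evalEval_C] using analyticAt_fst
  | hY => simpa using analyticAt_snd
  | ha p q hp hq => simpa [evalEval_add] using hp.fun_add hq
  | hm p q hp hq => simpa [evalEval_mul] using hp.fun_mul hq

theorem der_evalEval (p : ℂ[X][X]) (x y : ℂ) :
    HasDerivAt (fun w => p.evalEval x w) ((derivative p).evalEval x y) y := by
  simpa [map_evalRingHom_eval] using (p.map (evalRingHom x)).hasDerivAt y

variable {F : Type} [Field F] [Algebra ℂ F] [CFF ℂ F]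

/-- evaluation of a polynomial in two variables -/
noncomputable def ap (t u : F) : ℂ[X][X] →+* F := eval₂RingHom (aeval t : ℂ[X] →ₐ[ℂ] F) u

omit [CFF ℂ F] in
theorem ap_C (t u : F) (q : ℂ[X]) : ap t u (C q) = aeval t q := by simp [ap]

omit [CFF ℂ F] in
theorem ap_X (t u : F) : ap t u X = u := by simp [ap]

theorem ap_ev {Q : Plk ℂ F} {t u : F} (ht : t ∈ Q.1) (hu : u ∈ Q.1) (p : ℂ[X][X]) :
    ap t u p ∈ Q.1 ∧ ev Q (ap t u p) = p.evalEval (ev Q t) (ev Q u) := by
  induction p using ind2 with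
  | hC c => simpa [evalEval_C, ap_C, ev_cst] using cst_mem Q c
  | hX => simpa [evalEval_C, ap_C] using ht
  | hY => simpa [ap_X] using hu
  | ha p q hp hq =>
    rw [map_add, ev_add hp.1 hq.1, hp.2, hq.2, evalEval_add]
    exact ⟨add_mem hp.1 hq.1, rfl⟩
  | hm p q hp hq =>
    rw [map_mul, ev_mul hp.1 hq.1, hp.2, hq.2, evalEval_mul]
    exact ⟨mul_mem hp.1 hq.1, rfl⟩

/-- functions which are regular where `t` is -/
def Rg (t f : F) : Prop := ∀ Q : Plk ℂ F, t ∈ Q.1 → f ∈ Q.1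

theorem pol_eq {t : F} {Q : Plk ℂ F} (h : t ∈ Q.1) : pol ℂ t Q = 0 := by
  rw [pol_apply]
  rcases mem_iff.1 h with h | h
  · rw [h, ord_zero]
    rfl
  · omega

/-- strong approximation -/
theorem exists_sa {t : F} (ht : ∀ a, t ≠ algebraMap ℂ F a) {P : Plk ℂ F} (hP : t ∈ P.1)
    (D : Plk ℂ F →₀ ℤ) (hD : D P = 0) :
    ∃ z : F, ev P z = 1 ∧ ∀ Q : Plk ℂ F, t ∈ Q.1 → z ∈ Mge Q (D Q) := by
  have := (finite_of_notMem ht).2
  have h1 : (1 : ℤ) ≤ dg (pol ℂ t) := by
    rw [dg_pol ht]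
    exact_mod_cast Module.finrank_pos
  obtain ⟨z, h0, h2, h3⟩ := h4_exact (D := |2 * gen ℂ F + dg D| • pol ℂ t - D) P (by
    rw [map_sub, map_zsmul, smul_eq_mul]
    nlinarith [le_abs_self (2 * gen ℂ F + dg D), abs_nonneg (2 * gen ℂ F + dg D)])
  simp only [Finsupp.sub_apply, Finsupp.smul_apply, smul_eq_mul] at h2 h3
  rw [pol_eq hP, hD] at h3
  have h4 : z ∈ P.1 := mem_iff.2 (Or.inr (by omega))
  have h5 : ev P z ≠ 0 := fun h => by
    rcases mem_of_ev h4 h with h | h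
    · exact h0 h
    · omega
  refine ⟨(ev P z)⁻¹ • z, by rw [ev_smul _ h4, inv_mul_cancel₀ h5], fun Q hQ =>
    Submodule.smul_mem _ _ (Or.inr ?_)⟩
  simpa [pol_eq hQ] using h2 Q

theorem exists_gens {t : F} (ht : ∀ a, t ≠ algebraMap ℂ F a) :
    ∃ (n : ℕ) (e : Fin n → F), (∀ i, Rg t (e i)) ∧
      ∀ f, Rg t f → ∃ φ : Fin n → ℂ[X], f = ∑ i, aeval t (φ i) * e i := by
  obtain ⟨e, a, h, -⟩ := exists_GrB ht
  refine ⟨_, e, fun i Q hQ => ?_, fun f hf => ?_⟩
  · simpa [pol_eq hQ, mem_iff] using mem_Mr.1 (h.mem i) Q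
  · obtain ⟨r, hr⟩ := exists_mem_Mr (x := t) (z := f) fun Q hQ =>
      mem_iff.1 (hf Q (mem_iff.2 (Or.inr hQ)))
    exact (h.span r f hr).imp fun φ hφ => hφ.1

/-- the plane model -/
theorem exists_model (P : Plk ℂ F) : ∃ (t u : F) (b m : ℂ[X][X]), ord P t = 1 ∧ Rg t u ∧
    ev P u = 1 ∧ b.evalEval 0 1 = 1 ∧ (∀ a, Rg t a → ∃ p, ap t u b * a = ap t u p) ∧
    (∀ p, ap t u p = 0 ↔ m ∣ p) ∧ (derivative m).evalEval 0 1 ≠ 0 := by
  classical
  obtain ⟨t, t0, t1⟩ := exists_unif P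
  have ht : ∀ a, t ≠ algebraMap ℂ F a := by
    rintro a rfl
    simp [ord_const] at t1
  have tP : t ∈ Mge P 1 := Or.inr t1.ge
  obtain ⟨u, u1, hu⟩ := exists_sa ht (mem_of_one tP) (dv ℂ t - Finsupp.single P 1)
    (by simp [dv_apply, t1])
  have hu' : ∀ Q : Plk ℂ F, t ∈ Q.1 → Q ≠ P → u ∈ Mge Q (ord Q t) := fun Q h1 h2 => by
    simpa [dv_apply, h2] using hu Q h1
  have uP := mem_of_ev_ne (u1.trans_ne one_ne_zero)
  have ur : Rg t u := fun Q hQ => by
    by_cases h : Q = P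
    · rwa [h]
    · exact mem_iff.2 (Mge_mono Q ((mem_iff.1 hQ).resolve_left t0) (hu' Q hQ h))
  have hw : ∀ a, Rg t a → Rg t (t⁻¹ * (u * (a - algebraMap ℂ F (ev P a)))) := fun a ha Q hQ => by
    rw [mem_iff, mul_mem_Mge_iff (inv_ne_zero t0), ord_inv, sub_neg_eq_add]
    by_cases h : Q = P
    · subst h
      rw [t1]
      exact mul_mem_Mge (mem_iff.1 uP) (sub_ev (ha Q hQ))
    · rw [add_comm]
      exact mul_mem_Mge (hu' Q hQ h) (mem_iff.1 (sub_mem (ha Q hQ) (cst_mem Q _)))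
  obtain ⟨n, e, he, hs⟩ := exists_gens ht
  have hb : ∃ b : ℂ[X][X], b.evalEval 0 1 = 1 ∧ ∀ a, Rg t a → ∃ p, ap t u b * a = ap t u p := by
    let _ : Algebra ℂ[X][X] F := (ap t u).toAlgebra
    let A : Submodule ℂ[X][X] F :=
      { carrier := {f | Rg t f}
        add_mem' := fun h1 h2 Q hQ => add_mem (h1 Q hQ) (h2 Q hQ)
        zero_mem' := fun Q _ => zero_mem _
        smul_mem' := fun p _ h Q hQ => mul_mem (ap_ev hQ (ur Q hQ) p).1 (h Q hQ) }
    have hA : A.FG := Submodule.fg_iff_exists_fin_generating_family.2 ⟨n, e, le_antisymm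
      (Submodule.span_le.2 (Set.range_subset_iff.2 he)) fun f hf => by
        obtain ⟨φ, rfl⟩ := hs f hf
        refine Submodule.sum_mem _ fun i _ => ?_
        rw [← ap_C t u]
        exact Submodule.smul_mem _ (C (φ i)) (Submodule.subset_span ⟨i, rfl⟩)⟩
    obtain ⟨b, b1, b2⟩ := Submodule.exists_sub_one_mem_and_smul_le_of_fg_of_le_sup
      (I := RingHom.ker (evalEvalRingHom (0 : ℂ) 1)) (N := 1) hA le_rfl fun a ha => by
        have h : a = algebraMap ℂ[X][X] F (C (C (ev P a)) * X) + ((1 - X : ℂ[X][X]) • a +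
            (C X : ℂ[X][X]) • (t⁻¹ * (u * (a - algebraMap ℂ F (ev P a))))) := by
          change a = ap t u _ + (ap t u _ * a + ap t u _ * _)
          simp only [map_mul, map_sub, map_one, ap_C, ap_X, aeval_C, aeval_X]
          field_simp
          ring
        rw [h]
        exact Submodule.add_mem_sup (Submodule.algebraMap_mem _) (add_mem
          (Submodule.smul_mem_smul (by simp [RingHom.mem_ker]) ha)
          (Submodule.smul_mem_smul (by simp [RingHom.mem_ker]) (hw a ha)))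
    refine ⟨b, ?_, fun a ha => ?_⟩
    · rw [RingHom.mem_ker, map_sub, map_one, sub_eq_zero] at b1
      exact b1
    · obtain ⟨p, hp⟩ := Submodule.mem_one.1 (b2 (Submodule.smul_mem_pointwise_smul a b A ha))
      exact ⟨p, hp.symm⟩
  obtain ⟨b, b1, hb⟩ := hb
  have hm : ∃ m : ℂ[X][X], ∀ p, ap t u p = 0 ↔ m ∣ p := by
    let _ : Algebra ℂ[X] F := (aeval t : ℂ[X] →ₐ[ℂ] F).toRingHom.toAlgebra
    have : Module.IsTorsionFree ℂ[X] F := Module.isTorsionFree_iff_algebraMap_injective.2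
      (transcendental_iff_injective.1 (finite_of_notMem ht).1)
    let A : Subalgebra ℂ[X] F :=
      { carrier := {f | Rg t f}
        add_mem' := fun h1 h2 Q hQ => add_mem (h1 Q hQ) (h2 Q hQ)
        mul_mem' := fun h1 h2 Q hQ => mul_mem (h1 Q hQ) (h2 Q hQ)
        algebraMap_mem' := fun p Q hQ => by
          have := (ap_ev hQ hQ (C p)).1
          rwa [ap_C] at this }
    have hA : A.toSubmodule.FG := Submodule.fg_iff_exists_fin_generating_family.2 ⟨n, e,
      le_antisymm (Submodule.span_le.2 (Set.range_subset_iff.2 he)) fun f hf => by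
        obtain ⟨φ, rfl⟩ := hs f hf
        exact Submodule.sum_mem _ fun i _ =>
          Submodule.smul_mem _ (φ i) (Submodule.subset_span ⟨i, rfl⟩)⟩
    exact ⟨_, fun p => minpoly.isIntegrallyClosed_dvd_iff (IsIntegral.of_mem_of_fg A hA u ur) p⟩
  obtain ⟨m, hm⟩ := hm
  refine ⟨t, u, b, m, t1, ur, u1, b1, hb, hm, fun h => ?_⟩
  obtain ⟨p, hp⟩ := hb _ (hw u ur)
  obtain ⟨H, hH⟩ := (hm (b * X * (X - 1) - C X * p)).1 (by
    simp only [map_mul, map_sub, map_one, ap_C, ap_X, aeval_X, ← hp, u1]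
    field_simp
    ring)
  have h1 := (ap_ev (mem_of_one tP) uP m).2
  rw [(hm m).2 dvd_rfl, ev_eq_zero (zero_mem _), ev_eq_zero tP, u1] at h1
  have h2 := congrArg (fun q => (derivative q).evalEval 0 1) hH
  simp [evalEval_add, evalEval_mul, evalEval_sub, evalEval_C, h, ← h1, b1] at h2

end Vale.Agent.P297Y.Jac
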